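import Vale.Agent.P040.Sph3.Defs

/-! # Algebraic identities -/

namespace Vale.Agent.P040.Sph3

lemma det3_swap12 (a b c : V3) : det3 b a c = - det3 a b c := by
  unfold det3 dot crs; ring

lemma det3_swap23 (a b c : V3) : det3 a c b = - det3 a b c := by
  unfold det3 dot crs; ring

lemma det3_cyc (a b c : V3) : det3 b c a = det3 a b c := by
  unfold det3 dot crs; ring

lemma det3_self12 (a c : V3) : det3 a a c = 0 := by
  unfold det3 dot crs; ring

lemma det3_self23 (a c : V3) : det3 a c c = 0 := by
  unfold det3 dot crs; ring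

lemma det3_self13 (a c : V3) : det3 a c a = 0 := by
  unfold det3 dot crs; ring

lemma dot_crs (a b c : V3) : dot (crs a b) c = det3 a b c := by
  unfold det3 dot crs; ring

lemma dot_comm (a b : V3) : dot a b = dot b a := by
  unfold dot; ring

lemma dot_ad (a b c : V3) : dot (ad a b) c = dot a c + dot b c := by
  unfold dot ad; ring

lemma dot_sm_left (t : ℝ) (a c : V3) : dot (sm t a) c = t * dot a c := by
  unfold dot sm; ring

lemma dot_sm_right (t : ℝ) (a c : V3) : dot a (sm t c) = t * dot a c := by
  unfold dot sm; ring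

lemma det3_sm2 (t : ℝ) (a b c : V3) : det3 a (sm t b) c = t * det3 a b c := by
  unfold det3 dot crs sm; ring

lemma det3_sm3 (t : ℝ) (a b c : V3) : det3 a b (sm t c) = t * det3 a b c := by
  unfold det3 dot crs sm; ring

lemma det3_sm1 (t : ℝ) (a b c : V3) : det3 (sm t a) b c = t * det3 a b c := by
  unfold det3 dot crs sm; ring

/-- three term Grassmann-Pluecker relation in the quotient by `u` -/
lemma gp (u a b c d : V3) :
    det3 u a b * det3 u c d - det3 u a c * det3 u b d + det3 u a d * det3 u b c = 0 := by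
  unfold det3 dot crs; ring

/-- transitivity inside an open half plane -/
lemma trans_aux (u y a b c : V3) (ha : 0 < det3 u y a) (hb : 0 < det3 u y b) (hc : 0 < det3 u y c)
    (hab : 0 < det3 u a b) (hbc : 0 < det3 u b c) : 0 < det3 u a c := by
  have h := gp u y a b c
  have h1 : det3 u y b * det3 u a c = det3 u y a * det3 u b c + det3 u y c * det3 u a b := by linarith
  have h2 : 0 < det3 u y b * det3 u a c := by rw [h1]; positivity
  exact (pos_iff_pos_of_mul_pos h2).1 hb

variable {k : ℕ}

lemma sg_mul_self (P : Finset (Ix k)) (l : Ix k) : sg P l * sg P l = 1 := by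
  unfold sg; split_ifs <;> norm_num

lemma sg_ne_zero (P : Finset (Ix k)) (l : Ix k) : sg P l ≠ 0 := by
  unfold sg; split_ifs <;> norm_num

lemma sg_pos_iff (P : Finset (Ix k)) (l : Ix k) : 0 < sg P l ↔ l ∈ P := by
  unfold sg; split_ifs with h <;> simp [h]

lemma Rl_iff (v : Ix k → V3) (s : St k) (l l' : Ix k) :
    Rl v s l l' ↔ 0 < sg s.2 l * sg s.2 l' * det3 (v s.1) (v l) (v l') := by
  unfold Rl rv
  rw [det3_sm2, det3_sm3]
  constructor <;> intro h <;> linarith

end Vale.Agent.P040.Sph3
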