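import Vale.Agent.P040.Sph3.Label
import Vale.Agent.P040.Sph80.GMain

/-! # Bridge: `Sph3.exists_labelling` gives the interface `Sph80.LabAll` -/

namespace Vale.Agent.P040.Sph3

open Finset

lemma det3_eq (a b c : V3) : det3 a b c = Sph56.det3 a b c := by
  unfold det3 dot crs Sph56.det3; ring

lemma dot_eq (a b : V3) : dot a b = Sph56.dot a b := rfl

theorem labAll (k : ℕ) : Sph80.LabAll k := by
  intro v hv
  have hg : GenPos v := by
    intro i j l h1 h2 h3
    rw [det3_eq]
    exact hv i j l h1 h2 h3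
  obtain ⟨σ, n, h1, h2, h3, h4, h5⟩ := exists_labelling k v hg
  refine ⟨σ, fun i => if h : i < 2 * k + 1 then n ⟨i, h⟩ else 0, ?_⟩
  have hl : ∀ i (h : i < 2 * k + 1), Sph40.lab v σ i = v (σ ⟨i, h⟩) := by
    intro i h
    unfold Sph40.lab
    rw [dif_pos h]
  constructor
  · intro i hi
    rw [hl i hi, dif_pos hi, ← dot_eq]
    exact h1 ⟨i, hi⟩
  · intro i hi j hj hij
    rw [hl j hj, dif_pos hi, ← dot_eq]
    apply h2
    intro e
    apply hij
    exact (congrArg Fin.val e).symm
  · intro i hi j hj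
    have hi' : i < 2 * k + 1 := by omega
    have hj' : j < 2 * k + 1 := by omega
    rw [hl j hj', dif_pos hi', ← dot_eq]
    exact h4 ⟨i, hi'⟩ ⟨j, hj'⟩ hi (by rw [Fin.lt_def]; exact hj)
  · intro i hki hi j hij hj
    rw [hl j hj, dif_pos hi, ← dot_eq]
    exact h5 ⟨i, hi⟩ ⟨j, hj⟩ hki (by rw [Fin.lt_def]; exact hij)
  · intro i hi
    rw [dif_pos hi]
    refine le_trans ?_ (h3 ⟨i, hi⟩)
    apply card_le_card_of_injOn (fun j => if h : j < 2 * k + 1 then (⟨j, h⟩ : Ix k) else 0)
    · intro j hj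
      simp only [coe_filter, mem_range, Set.mem_ofPred_eq] at hj
      obtain ⟨hj1, hj2⟩ := hj
      simp only [coe_filter, mem_univ, true_and, Set.mem_ofPred_eq]
      rw [dif_pos hj1]
      rw [hl j hj1, ← dot_eq] at hj2
      exact hj2
    · intro j hj j' hj' e
      simp only [coe_filter, mem_range, Set.mem_ofPred_eq] at hj hj'
      simp only [dif_pos hj.1, dif_pos hj'.1] at e
      exact congrArg Fin.val e

end Vale.Agent.P040.Sph3
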