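import Mathlib

/-!
# Abstract parity lemma (rows PA*): no geometry

`S` = states, `X` = vertices, `E s` = ends of `s`, `τ` = antipode, `d` = side of a vertex.
-/

namespace Vale.Agent.P040.Sph3

open Finset

variable {S X : Type*} [Fintype S] [Fintype X] [DecidableEq S] [DecidableEq X]

/-- two states share an end -/
def Sh (E : S → Finset X) (a b : S) : Prop := ∃ x, x ∈ E a ∧ x ∈ E b

/-- (PA1) `ReflTransGen (Sh E)` is symmetric (`Sh E` is symmetric; `Relation.ReflTransGen.symmetric`). -/
lemma reach_symm (E : S → Finset X) {a b : S} (h : Relation.ReflTransGen (Sh E) a b) :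
    Relation.ReflTransGen (Sh E) b a := by
  induction h with
  | refl => exact Relation.ReflTransGen.refl
  | tail _ h2 ih =>
    obtain ⟨x, h3, h4⟩ := h2
    exact Relation.ReflTransGen.head ⟨x, h4, h3⟩ ih

/-- (PA2) a class function separating the classes: e.g. `m s = sInf (f '' {t | Reach s t})` (or `Finset.min'`) for an injective
`f : S → ℕ` (`Fintype.equivFin`). -/
lemma exists_classfn (E : S → Finset X) :
    ∃ m : S → ℕ, ∀ a b, m a = m b ↔ Relation.ReflTransGen (Sh E) a b := by
  let st : Setoid S :=
    { r := Relation.ReflTransGen (Sh E)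
      iseqv := ⟨fun _ => Relation.ReflTransGen.refl, fun h => reach_symm E h,
        fun h h' => h.trans h'⟩ }
  obtain ⟨f, hf⟩ := exists_injective_nat (Quotient st)
  refine ⟨fun s => f (Quotient.mk st s), fun a b => ?_⟩
  constructor
  · intro h
    exact Quotient.exact (hf h)
  · intro h
    exact congrArg f (Quotient.sound h)

/-- (PA3) double counting: if `U` is closed under `Sh` and every vertex lies on 0 or 2 states, then the total number of (state in `U`, end)
weighted by `d` is even.  `∑_{s∈U} ∑_{x∈E s} d x = ∑_x d x * #{s ∈ U | x ∈ E s}` (`Finset.sum_comm'` or `sum_filter`, `sum_comm`), and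
`#{s ∈ U | x ∈ E s}` is `0` or `#{s | x ∈ E s}` (all states at `x` are pairwise `Sh`), hence even. -/
lemma even_sum_closed (E : S → Finset X) (d : X → ℕ) (U : Finset S)
    (hU : ∀ a b, Sh E a b → (a ∈ U ↔ b ∈ U))
    (hX : ∀ x, (univ.filter fun s => x ∈ E s).card = 0 ∨ (univ.filter fun s => x ∈ E s).card = 2) :
    Even (∑ s ∈ U, ∑ x ∈ E s, d x) := by
  have h1 : ∑ s ∈ U, ∑ x ∈ E s, d x = ∑ x : X, d x * (U.filter fun s => x ∈ E s).card := by
    have h2 : ∀ s, ∑ x ∈ E s, d x = ∑ x : X, if x ∈ E s then d x else 0 := by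
      intro s
      rw [← Finset.sum_filter]
      congr 1
      ext x
      simp
    simp only [h2]
    rw [Finset.sum_comm]
    refine Finset.sum_congr rfl fun x _ => ?_
    rw [← Finset.sum_filter, Finset.sum_const, smul_eq_mul, mul_comm]
  rw [h1]
  refine Finset.even_sum _ fun x _ => ?_
  apply Even.mul_left
  by_cases hne : ∃ s0 ∈ U, x ∈ E s0
  · obtain ⟨s0, hs0, hx0⟩ := hne
    have : (U.filter fun s => x ∈ E s) = univ.filter fun s => x ∈ E s := by
      ext s
      simp only [mem_filter, mem_univ, true_and]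
      constructor
      · exact fun h => h.2
      · intro h
        exact ⟨(hU s0 s ⟨x, hx0, h⟩).1 hs0, h⟩
    rw [this]
    rcases hX x with h | h <;> rw [h]
    · exact Even.zero
    · exact even_two
  · have : (U.filter fun s => x ∈ E s) = ∅ := by
      apply Finset.filter_eq_empty_iff.2
      intro s hs hx
      exact hne ⟨s, hs, hx⟩
    rw [this]
    simp

/-- (PA4) the number of odd terms has the parity of the sum (`Finset.sum_nat_mod`, or induction on `U`). -/
lemma card_odd_mod_two (c : S → ℕ) (U : Finset S) :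
    (U.filter fun s => c s % 2 = 1).card % 2 = (∑ s ∈ U, c s) % 2 := by
  induction U using Finset.induction_on with
  | empty => simp
  | insert a U ha ih =>
    rw [Finset.sum_insert ha, Finset.filter_insert]
    split_ifs with h
    · rw [Finset.card_insert_of_notMem (by simp [ha])]
      omega
    · omega

/-- (PA5) if `τ` is an involution exchanging `U` and its complement and preserving the parity of `c`, the number of odd states is twice
the number of odd states in `U` (`card_bij` / `card_nbij'` with `τ` between the two halves; `filter_union_filter_neg_eq`). -/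
lemma card_odd_eq_two_mul (c : S → ℕ) (τ : S → S) (hτ : ∀ s, τ (τ s) = s) (U : Finset S)
    (hU : ∀ s, s ∈ U ↔ τ s ∉ U) (hc : ∀ s, c (τ s) % 2 = c s % 2) :
    (univ.filter fun s => c s % 2 = 1).card = 2 * (U.filter fun s => c s % 2 = 1).card := by
  have h0 := Finset.card_filter_add_card_filter_not (s := univ.filter fun s => c s % 2 = 1)
    (fun s => s ∈ U)
  have h1 : ((univ.filter fun s => c s % 2 = 1).filter fun s => s ∈ U) =
      U.filter fun s => c s % 2 = 1 := by
    ext s
    simp only [mem_filter, mem_univ, true_and]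
    tauto
  have h2 : ((univ.filter fun s => c s % 2 = 1).filter fun s => ¬ s ∈ U).card =
      (U.filter fun s => c s % 2 = 1).card := by
    refine Finset.card_bij (fun s _ => τ s) ?_ ?_ ?_
    · intro s hs
      simp only [mem_filter, mem_univ, true_and] at hs ⊢
      refine ⟨?_, by rw [hc]; exact hs.1⟩
      rw [hU, hτ]
      exact hs.2
    · intro a _ b _ hab
      have := congrArg τ hab
      rwa [hτ, hτ] at this
    · intro b hb
      simp only [mem_filter] at hb
      refine ⟨τ b, ?_, hτ b⟩
      simp only [mem_filter, mem_univ, true_and]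
      exact ⟨by rw [hc]; exact hb.2, (hU b).1 hb.1⟩
  rw [h1, h2] at h0
  omega

/-- (PA6) **parity lemma**.  Assembly: by contradiction; `m` from PA2, `U = {s | m s < m (τ s)}`; closed under `Sh` by PA2 and `hadj`;
`s ∈ U ↔ τ s ∉ U` because `m s ≠ m (τ s)`; PA3, PA4, PA5 give `card % 4 = 0`. -/
theorem parity_chain (E : S → Finset X) (τ : S → S) (d : X → ℕ) (hτ : ∀ s, τ (τ s) = s)
    (hX : ∀ x, (univ.filter fun s => x ∈ E s).card = 0 ∨ (univ.filter fun s => x ∈ E s).card = 2)
    (hadj : ∀ a b, Sh E a b → Sh E (τ a) (τ b))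
    (hc : ∀ s, (∑ x ∈ E (τ s), d x) % 2 = (∑ x ∈ E s, d x) % 2)
    (hodd : (univ.filter fun s => (∑ x ∈ E s, d x) % 2 = 1).card % 4 = 2) :
    ∃ s, Relation.ReflTransGen (Sh E) s (τ s) := by
  by_contra hcon
  push Not at hcon
  obtain ⟨m, hm⟩ := exists_classfn E
  have hne : ∀ s, m s ≠ m (τ s) := fun s h => hcon s ((hm _ _).1 h)
  have hlift : ∀ a b, Relation.ReflTransGen (Sh E) a b → Relation.ReflTransGen (Sh E) (τ a) (τ b) := by
    intro a b h
    induction h with
    | refl => exact Relation.ReflTransGen.refl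
    | tail _ h2 ih => exact ih.tail (hadj _ _ h2)
  set U : Finset S := univ.filter fun s => m s < m (τ s) with hUdef
  have hU1 : ∀ a b, Sh E a b → (a ∈ U ↔ b ∈ U) := by
    intro a b h
    have e1 : m a = m b := (hm _ _).2 (Relation.ReflTransGen.single h)
    have e2 : m (τ a) = m (τ b) := (hm _ _).2 (hlift _ _ (Relation.ReflTransGen.single h))
    simp only [hUdef, mem_filter, mem_univ, true_and, e1, e2]
  have hU2 : ∀ s, s ∈ U ↔ τ s ∉ U := by
    intro s
    simp only [hUdef, mem_filter, mem_univ, true_and, hτ, not_lt]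
    have := hne s
    omega
  have h3 := even_sum_closed E d U hU1 hX
  have h4 := card_odd_mod_two (fun s => ∑ x ∈ E s, d x) U
  have h5 := card_odd_eq_two_mul (fun s => ∑ x ∈ E s, d x) τ hτ U hU2 hc
  have h6 : (∑ s ∈ U, ∑ x ∈ E s, d x) % 2 = 0 := Nat.even_iff.1 h3

  omega

end Vale.Agent.P040.Sph3
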