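import Vale.Agent.P040.Sph3.Alg
import Vale.Agent.P040.Sph3.Parity

/-! # A generic point lies on an odd number of halving great circles through a vector (rows OD*) -/

namespace Vale.Agent.P040.Sph3

open Finset

section comb

variable {α : Type*} [DecidableEq α]

/-- level just before `u` -/
noncomputable def Lb (κ : α → ℝ) (g : α → Bool) (S : Finset α) (u : α) : ℕ :=
  (S.filter fun l => κ l < κ u ∧ g l = false).card + (S.filter fun l => κ u ≤ κ l ∧ g l = true).card

/-- level just after `u` -/
noncomputable def La (κ : α → ℝ) (g : α → Bool) (S : Finset α) (u : α) : ℕ :=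
  (S.filter fun l => κ l ≤ κ u ∧ g l = false).card + (S.filter fun l => κ u < κ l ∧ g l = true).card

/-- (OD1) adding a new largest element `a`: for `u ∈ s` both levels grow by `[g a]` (`filter_insert`, `card_insert_of_notMem`). -/
lemma lev_insert (κ : α → ℝ) (g : α → Bool) {a : α} {s : Finset α} (ha : a ∉ s)
    (hmax : ∀ x ∈ s, κ x < κ a) {u : α} (hu : u ∈ s) :
    Lb κ g (insert a s) u = Lb κ g s u + (if g a then 1 else 0) ∧
      La κ g (insert a s) u = La κ g s u + (if g a then 1 else 0) := by
  have hlt := hmax u hu
  have n1 : ¬ (κ a < κ u ∧ g a = false) := fun h => absurd h.1 (not_lt.2 hlt.le)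
  have n2 : ¬ (κ a ≤ κ u ∧ g a = false) := fun h => absurd h.1 (not_le.2 hlt)
  unfold Lb La
  rw [filter_insert, filter_insert, filter_insert, filter_insert, if_neg n1, if_neg n2]
  by_cases hg : g a = true
  · rw [if_pos (⟨hlt.le, hg⟩ : κ u ≤ κ a ∧ g a = true), if_pos (⟨hlt, hg⟩ : κ u < κ a ∧ g a = true),
      if_pos hg, card_insert_of_notMem (fun hm => ha (mem_filter.1 hm).1),
      card_insert_of_notMem (fun hm => ha (mem_filter.1 hm).1)]
    exact ⟨by ring, by ring⟩
  · rw [if_neg (fun h => hg h.2 : ¬ (κ u ≤ κ a ∧ g a = true)),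
      if_neg (fun h => hg h.2 : ¬ (κ u < κ a ∧ g a = true)), if_neg hg]
    exact ⟨rfl, rfl⟩

/-- (OD2) the levels at the new largest element. -/
lemma lev_top (κ : α → ℝ) (g : α → Bool) {a : α} {s : Finset α} (ha : a ∉ s)
    (hmax : ∀ x ∈ s, κ x < κ a) :
    Lb κ g (insert a s) a = (s.filter fun l => g l = false).card + (if g a then 1 else 0) ∧
      La κ g (insert a s) a = ((insert a s).filter fun l => g l = false).card := by
  constructor
  · unfold Lb
    have e1 : ((insert a s).filter fun l => κ l < κ a ∧ g l = false) =
        s.filter fun l => g l = false := by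
      ext l
      simp only [mem_filter, mem_insert]
      constructor
      · rintro ⟨h1 | h1, h2, h3⟩
        · subst h1; exact absurd h2 (lt_irrefl _)
        · exact ⟨h1, h3⟩
      · rintro ⟨h1, h3⟩
        exact ⟨Or.inr h1, hmax l h1, h3⟩
    have e2 : ((insert a s).filter fun l => κ a ≤ κ l ∧ g l = true) =
        if g a then {a} else ∅ := by
      ext l
      by_cases hga : g a = true
      · rw [if_pos hga]
        simp only [mem_filter, mem_insert, mem_singleton]
        constructor
        · rintro ⟨h1 | h1, h2, h3⟩
          · exact h1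
          · exact absurd (hmax l h1) (not_lt.2 h2)
        · rintro rfl
          exact ⟨Or.inl rfl, le_refl _, hga⟩
      · rw [if_neg hga]
        simp only [mem_filter, mem_insert, notMem_empty, iff_false]
        rintro ⟨h1 | h1, h2, h3⟩
        · subst h1; exact hga h3
        · exact absurd (hmax l h1) (not_lt.2 h2)
    rw [e1, e2]
    by_cases hga : g a = true
    · rw [if_pos hga, if_pos hga, card_singleton]
    · rw [if_neg hga, if_neg hga, card_empty]
  · unfold La
    have e1 : ((insert a s).filter fun l => κ l ≤ κ a ∧ g l = false) =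
        (insert a s).filter fun l => g l = false := by
      ext l
      simp only [mem_filter, mem_insert]
      constructor
      · rintro ⟨h1, _, h3⟩
        exact ⟨h1, h3⟩
      · rintro ⟨h1 | h1, h3⟩
        · subst h1; exact ⟨Or.inl rfl, le_refl _, h3⟩
        · exact ⟨Or.inr h1, (hmax l h1).le, h3⟩
    have e2 : ((insert a s).filter fun l => κ a < κ l ∧ g l = true) = ∅ := by
      ext l
      simp only [mem_filter, mem_insert, notMem_empty, iff_false]
      rintro ⟨h1 | h1, h2, _⟩
      · subst h1; exact lt_irrefl _ h2
      · exact lt_asymm h2 (hmax l h1)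
    rw [e1, e2, card_empty, add_zero]

/-- (OD3) telescoping mod 2.  `Finset.induction_on_max_value κ` on `S` (generalising `c`); injectivity makes `κ x ≤ κ a` strict; for `u ∈ s`
use OD1 and the induction hypothesis with `c + [g a]`; the term `u = a` is OD2; the two middle terms cancel mod 2 (`omega` after
`split_ifs`, or work with `Nat.add_mod`). -/
lemma telescope (κ : α → ℝ) (g : α → Bool) (t : ℕ) (S : Finset α)
    (hinj : ∀ x ∈ S, ∀ y ∈ S, κ x = κ y → x = y) : ∀ c : ℕ,
    (∑ u ∈ S, ((if Lb κ g S u + c ≤ t then 1 else 0) + (if La κ g S u + c ≤ t then 1 else 0))) % 2 =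
      ((if (S.filter fun l => g l = true).card + c ≤ t then 1 else 0) +
        (if (S.filter fun l => g l = false).card + c ≤ t then 1 else 0)) % 2 := by
  induction S using Finset.induction_on_max_value κ with
  | empty =>
    intro c
    simp only [sum_empty, filter_empty, card_empty, zero_add]
    split_ifs <;> rfl
  | insert a s ha hmax ih =>
    intro c
    have hlt : ∀ x ∈ s, κ x < κ a := by
      intro x hx
      refine lt_of_le_of_ne (hmax x hx) ?_
      intro he
      have := hinj x (mem_insert_of_mem hx) a (mem_insert_self a s) he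
      exact ha (this ▸ hx)
    have ih' := ih (fun x hx y hy => hinj x (mem_insert_of_mem hx) y (mem_insert_of_mem hy))
      ((if g a then 1 else 0) + c)
    simp only [← add_assoc] at ih'
    rw [sum_insert ha]
    obtain ⟨t1, t2⟩ := lev_top κ g ha hlt
    rw [t1, t2]
    have hsum : ∑ u ∈ s, ((if Lb κ g (insert a s) u + c ≤ t then 1 else 0) +
        (if La κ g (insert a s) u + c ≤ t then 1 else 0)) =
        ∑ u ∈ s, ((if Lb κ g s u + (if g a then 1 else 0) + c ≤ t then 1 else 0) +
        (if La κ g s u + (if g a then 1 else 0) + c ≤ t then 1 else 0)) := by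
      apply sum_congr rfl
      intro u hu
      obtain ⟨l1, l2⟩ := lev_insert κ g ha hlt hu
      rw [l1, l2]
    rw [hsum]
    have hT : ((insert a s).filter fun l => g l = true).card =
        (s.filter fun l => g l = true).card + (if g a then 1 else 0) := by
      rw [filter_insert]
      by_cases h : g a = true
      · rw [if_pos h, if_pos h, card_insert_of_notMem (fun hm => ha (mem_filter.1 hm).1)]
      · rw [if_neg h, if_neg h, add_zero]
    rw [hT]
    generalize (∑ u ∈ s, ((if Lb κ g s u + (if g a then 1 else 0) + c ≤ t then 1 else 0) +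
        (if La κ g s u + (if g a then 1 else 0) + c ≤ t then 1 else 0))) = A at ih' ⊢
    generalize (if (s.filter fun l => g l = false).card + (if g a then 1 else 0) + c ≤ t then 1 else 0) = y at ih' ⊢
    generalize (if (s.filter fun l => g l = true).card + (if g a then 1 else 0) + c ≤ t then 1 else 0) = x at ih' ⊢
    generalize (if ((insert a s).filter fun l => g l = false).card + c ≤ t then 1 else 0) = z at ih' ⊢
    omega

end comb

variable {k : ℕ} {v : Ix k → V3} {q : V3}

/-- (OD4) avoid finitely many planes.  Induction on `W`: given `z` good for `W` and a new `w ≠ 0`, take `z' = ad z (sm δ w)` with `δ ≠ 0` (if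
`dot z w = 0`) outside the finite set of the `- dot z w' / dot w w'`; `Set.Infinite` / `Infinite.exists_notMem_finset`.  (Compare `exists_shear`
in `Rect/`.)  Or `z = (1, t, t^2)` and roots of polynomials. -/
lemma exists_avoid (W : Finset V3) (hW : ∀ w ∈ W, w ≠ (0, 0, 0)) : ∃ z : V3, ∀ w ∈ W, dot z w ≠ 0 := by
  classical
  induction W using Finset.induction_on with
  | empty => exact ⟨(0, 0, 0), fun w hw => absurd hw (notMem_empty w)⟩
  | insert w W _ ih =>
    obtain ⟨z, hz⟩ := ih (fun x hx => hW x (mem_insert_of_mem hx))
    have hw0 : w ≠ (0, 0, 0) := hW w (mem_insert_self w W)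
    have hww : dot w w ≠ 0 := by
      intro h
      apply hw0
      unfold dot at h
      have h1 : w.1 = 0 := by nlinarith [mul_self_nonneg w.1, mul_self_nonneg w.2.1, mul_self_nonneg w.2.2]
      have h2 : w.2.1 = 0 := by nlinarith [mul_self_nonneg w.1, mul_self_nonneg w.2.1, mul_self_nonneg w.2.2]
      have h3 : w.2.2 = 0 := by nlinarith [mul_self_nonneg w.1, mul_self_nonneg w.2.1, mul_self_nonneg w.2.2]
      exact Prod.ext h1 (Prod.ext h2 h3)
    obtain ⟨δ, hδ⟩ := Infinite.exists_notMem_finset
      ((insert w W).image fun x : V3 => - dot z x / dot w x)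
    refine ⟨ad z (sm δ w), ?_⟩
    intro x hx h
    have e : dot (ad z (sm δ w)) x = dot z x + δ * dot w x := by
      unfold dot ad sm
      ring
    rw [e] at h
    by_cases hwx : dot w x = 0
    · rw [hwx, mul_zero, add_zero] at h
      rcases mem_insert.1 hx with rfl | hx'
      · exact hww hwx
      · exact hz x hx' h
    · apply hδ
      rw [mem_image]
      refine ⟨x, hx, ?_⟩
      field_simp
      linarith

/-- (OD5) OD4 with `W` = image of `fun x => crs (v x.1) (v x.2)` on the pairs `x.1 ≠ x.2`; `crs (v i) (v j) ≠ 0` because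
`det3 (v l) (v i) (v j) ≠ 0` for a third index `l` (`2k+1 ≥ 3`); `det3 q a b = dot q (crs a b)` by definition. -/
lemma exists_genQ (hg : GenPos v) (hk : 1 ≤ k) : ∃ q, GenQ v q := by
  classical
  obtain ⟨z, hz⟩ := exists_avoid
    ((univ.filter fun x : Ix k × Ix k => x.1 ≠ x.2).image fun x => crs (v x.1) (v x.2)) (by
      intro w hw
      rw [mem_image] at hw
      obtain ⟨x, hx, rfl⟩ := hw
      rw [mem_filter] at hx
      have hx2 := hx.2
      intro h0
      -- a third index
      have hcard : 2 < (univ : Finset (Ix k)).card := by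
        rw [card_univ, Fintype.card_fin]; omega
      have : ∃ l : Ix k, l ∉ ({x.1, x.2} : Finset (Ix k)) := by
        by_contra hc
        push Not at hc
        have hsub : (univ : Finset (Ix k)) ⊆ {x.1, x.2} := fun l _ => hc l
        have := card_le_card hsub
        have h2 : ({x.1, x.2} : Finset (Ix k)).card ≤ 2 := card_le_two
        omega
      obtain ⟨l, hl⟩ := this
      simp only [mem_insert, mem_singleton, not_or] at hl
      apply hg l x.1 x.2 hl.1 hl.2 hx2
      unfold det3
      rw [h0]
      simp [dot])
  refine ⟨z, ?_⟩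
  intro i j hij
  exact hz _ (mem_image.2 ⟨(i, j), mem_filter.2 ⟨mem_univ _, hij⟩, rfl⟩)

/-- (OD6) a frame: OD4 with `W` = image of `fun l => crs (v l) q` (`det3 q e (v l) = dot e (crs (v l) q)`, ring; `crs (v l) q ≠ 0` by `hq`
and a second index); `e' = crs q e`: `det3 q e (crs q e)` is a sum of squares, positive because `crs q e ≠ 0` (else `det3 q e (v l) = 0`). -/
lemma exists_frame (hq : GenQ v q) (hk : 1 ≤ k) :
    ∃ e e' : V3, (∀ l, det3 q e (v l) ≠ 0) ∧ 0 < det3 q e e' := by
  classical
  have hne : ∀ w ∈ (univ.image fun l : Ix k => crs (v l) q), w ≠ (0, 0, 0) := by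
    intro w hw
    rw [mem_image] at hw
    obtain ⟨l, _, rfl⟩ := hw
    intro h0
    obtain ⟨l', hl'⟩ : ∃ l' : Ix k, l ≠ l' := by
      by_cases h : l = ⟨0, by omega⟩
      · refine ⟨⟨1, by omega⟩, ?_⟩
        rw [h]
        intro e
        have := congrArg Fin.val e
        simp at this
      · exact ⟨_, h⟩
    apply hq l l' hl'
    have e1 : det3 q (v l) (v l') = - dot (crs (v l) q) (v l') := by
      unfold det3 dot crs
      ring
    rw [e1, h0]
    unfold dot
    simp
  obtain ⟨e, he⟩ := exists_avoid _ hne
  have h1 : ∀ l, det3 q e (v l) ≠ 0 := by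
    intro l
    have e1 : det3 q e (v l) = dot e (crs (v l) q) := by
      unfold det3 dot crs
      ring
    rw [e1]
    exact he _ (mem_image_of_mem _ (mem_univ l))
  refine ⟨e, crs q e, h1, ?_⟩
  have e2 : det3 q e (crs q e) = (crs q e).1 ^ 2 + (crs q e).2.1 ^ 2 + (crs q e).2.2 ^ 2 := by
    unfold det3 dot crs
    ring
  have e3 : det3 q e (v ⟨0, by omega⟩) = (crs q e).1 * (v ⟨0, by omega⟩).1 +
      (crs q e).2.1 * (v ⟨0, by omega⟩).2.1 + (crs q e).2.2 * (v ⟨0, by omega⟩).2.2 := by
    unfold det3 dot crs
    ring
  rw [e2]
  by_contra hcon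
  have a1 := sq_nonneg (crs q e).1
  have a2 := sq_nonneg (crs q e).2.1
  have a3 := sq_nonneg (crs q e).2.2
  have b1 : (crs q e).1 = 0 := pow_eq_zero_iff (two_ne_zero) |>.1 (by linarith)
  have b2 : (crs q e).2.1 = 0 := pow_eq_zero_iff (two_ne_zero) |>.1 (by linarith)
  have b3 : (crs q e).2.2 = 0 := pow_eq_zero_iff (two_ne_zero) |>.1 (by linarith)
  apply h1 ⟨0, by omega⟩
  rw [e3, b1, b2, b3]
  ring

/-- (OD7) `gp q e e' a b`. -/
lemma frame_formula (q e e' a b : V3) :
    det3 q e e' * det3 q a b = det3 q e a * det3 q e' b - det3 q e b * det3 q e' a := by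
  have := gp q e e' a b
  linarith

/-- slope key -/
noncomputable def kap (v : Ix k → V3) (q e e' : V3) (l : Ix k) : ℝ := det3 q e' (v l) / det3 q e (v l)

/-- side key -/
noncomputable def sid (v : Ix k → V3) (q e : V3) (l : Ix k) : Bool := decide (0 < det3 q e (v l))

/-- (OD8) by OD7: `det3 q (v u) (v l) = det3 q e (v u) * det3 q e (v l) * (kap l - kap u) / det3 q e e'` (`field_simp`), then signs. -/
lemma posQ_iff {e e' : V3} (he : ∀ l, det3 q e (v l) ≠ 0) (hee : 0 < det3 q e e') (u l : Ix k) :
    0 < det3 q (v u) (v l) ↔
      (sid v q e u = sid v q e l ∧ kap v q e e' u < kap v q e e' l) ∨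
      (sid v q e u ≠ sid v q e l ∧ kap v q e e' l < kap v q e e' u) := by
  have hu := he u
  have hl := he l
  have hW : det3 q e e' * det3 q (v u) (v l) =
      det3 q e (v u) * det3 q e (v l) * (kap v q e e' l - kap v q e e' u) := by
    rw [frame_formula]
    unfold kap
    field_simp
  have h0 : 0 < det3 q (v u) (v l) ↔
      0 < det3 q e (v u) * det3 q e (v l) * (kap v q e e' l - kap v q e e' u) := by
    rw [← hW]
    exact (mul_pos_iff_of_pos_left hee).symm
  rw [h0]
  unfold sid
  generalize kap v q e e' l = kl
  generalize kap v q e e' u = ku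
  generalize det3 q e (v u) = a at hu
  generalize det3 q e (v l) = b at hl
  have key : ∀ c x : ℝ, c < 0 → (0 < c * x ↔ x < 0) := fun c x hc =>
    ⟨fun h => by
      by_contra hx
      have := mul_nonpos_of_nonpos_of_nonneg hc.le (not_lt.1 hx)
      linarith, fun hx => mul_pos_of_neg_of_neg hc hx⟩
  rcases lt_or_gt_of_ne hu with h1 | h1 <;> rcases lt_or_gt_of_ne hl with h2 | h2
  · have d1 : decide (0 < a) = false := decide_eq_false (not_lt.2 h1.le)
    have d2 : decide (0 < b) = false := decide_eq_false (not_lt.2 h2.le)
    rw [d1, d2, mul_pos_iff_of_pos_left (mul_pos_of_neg_of_neg h1 h2), sub_pos]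
    simp
  · have d1 : decide (0 < a) = false := decide_eq_false (not_lt.2 h1.le)
    have d2 : decide (0 < b) = true := decide_eq_true h2
    rw [d1, d2, key _ _ (mul_neg_of_neg_of_pos h1 h2), sub_neg]
    simp
  · have d1 : decide (0 < a) = true := decide_eq_true h1
    have d2 : decide (0 < b) = false := decide_eq_false (not_lt.2 h2.le)
    rw [d1, d2, key _ _ (mul_neg_of_pos_of_neg h1 h2), sub_neg]
    simp
  · have d1 : decide (0 < a) = true := decide_eq_true h1
    have d2 : decide (0 < b) = true := decide_eq_true h2
    rw [d1, d2, mul_pos_iff_of_pos_left (mul_pos h1 h2), sub_pos]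
    simp

section walk76

variable {ι : Type*} [DecidableEq ι] (t : ι → ℝ) (σ : ι → Bool)

/-- the lower one of the two levels next to the step `a` of the walk -/
noncomputable def lev76 (S : Finset ι) (a : ι) : ℤ :=
  ((S.filter fun b => σ b = true ∧ t b < t a).card : ℤ) +
    ((S.filter fun b => σ b = false ∧ t a < t b).card : ℤ)

lemma lev_insert_of_lt76 {S : Finset ι} {z a : ι} (hz : z ∉ S) (h : t a < t z) :
    lev76 t σ (insert z S) a = lev76 t σ S a + (if σ z = false then 1 else 0) := by
  unfold lev76
  rw [filter_insert, filter_insert]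
  have h1 : ¬ (σ z = true ∧ t z < t a) := fun hh => absurd hh.2 (not_lt.2 h.le)
  rw [if_neg h1]
  by_cases hs : σ z = false
  · have h2 : σ z = false ∧ t a < t z := ⟨hs, h⟩
    rw [if_pos h2, if_pos hs, card_insert_of_notMem (fun hh => hz (mem_filter.1 hh).1)]
    push_cast
    ring
  · have h2 : ¬ (σ z = false ∧ t a < t z) := fun hh => hs hh.1
    rw [if_neg h2, if_neg hs]
    ring

lemma lev_insert_self76 {S : Finset ι} {z : ι} (h : ∀ x ∈ S, t x < t z) :
    lev76 t σ (insert z S) z = ((S.filter fun b => σ b = true).card : ℤ) := by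
  unfold lev76
  rw [filter_insert, filter_insert]
  have h1 : ¬ (σ z = true ∧ t z < t z) := fun hh => lt_irrefl _ hh.2
  have h2 : ¬ (σ z = false ∧ t z < t z) := fun hh => lt_irrefl _ hh.2
  rw [if_neg h1, if_neg h2]
  have e1 : (S.filter fun b => σ b = true ∧ t b < t z) = S.filter fun b => σ b = true := by
    apply filter_congr
    intro x hx
    exact ⟨fun hh => hh.1, fun hh => ⟨hh, h x hx⟩⟩
  have e2 : (S.filter fun b => σ b = false ∧ t z < t b) = ∅ := by
    apply filter_eq_empty_iff.2
    intro x hx hh
    exact absurd hh.2 (not_lt.2 (h x hx).le)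
  rw [e1, e2]
  simp

/-- parity of the number of steps between the levels `k` and `k + 1` -/
theorem walk_parity76 (S : Finset ι) : Set.InjOn t S → ∀ k : ℤ,
    ((S.filter fun a => lev76 t σ S a = k).card +
      (if k + 1 ≤ ((S.filter fun b => σ b = false).card : ℤ) then 1 else 0) +
      (if k + 1 ≤ ((S.filter fun b => σ b = true).card : ℤ) then 1 else 0)) % 2 = 0 := by
  induction S using Finset.induction_on_max_value t with
  | empty =>
    intro _ k
    simp only [filter_empty, card_empty, Nat.cast_zero]
    split_ifs <;> rfl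
  | insert z S hz hmax ih =>
    intro hinj k
    have hlt : ∀ x ∈ S, t x < t z := by
      intro x hx
      refine lt_of_le_of_ne (hmax x hx) (fun e => hz ?_)
      have := hinj (mem_coe.2 (mem_insert_of_mem hx)) (mem_coe.2 (mem_insert_self z S)) e
      rwa [this] at hx
    have ih' := ih (hinj.mono (by intro x hx; exact mem_coe.2 (mem_insert_of_mem (mem_coe.1 hx))))
    have hself := lev_insert_self76 t σ hlt
    have hcnt : ((insert z S).filter fun a => lev76 t σ (insert z S) a = k).card =
        (if ((S.filter fun b => σ b = true).card : ℤ) = k then 1 else 0) +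
        (S.filter fun a => lev76 t σ S a = k - (if σ z = false then 1 else 0)).card := by
      rw [filter_insert, hself]
      have e : (S.filter fun a => lev76 t σ (insert z S) a = k) =
          S.filter fun a => lev76 t σ S a = k - (if σ z = false then 1 else 0) := by
        apply filter_congr
        intro x hx
        rw [lev_insert_of_lt76 t σ hz (hlt x hx)]
        constructor <;> intro hh <;> linarith
      rw [e]
      by_cases h1 : ((S.filter fun b => σ b = true).card : ℤ) = k
      · rw [if_pos h1, if_pos h1, card_insert_of_notMem (fun hh => hz (mem_filter.1 hh).1)]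
        ring
      · rw [if_neg h1, if_neg h1]
        ring
    rw [hcnt]
    by_cases hs : σ z = false
    · have hs' : ¬ σ z = true := by rw [hs]; simp
      have c1 : ((insert z S).filter fun b => σ b = false).card =
          (S.filter fun b => σ b = false).card + 1 := by
        rw [filter_insert, if_pos hs, card_insert_of_notMem (fun hh => hz (mem_filter.1 hh).1)]
      have c2 : ((insert z S).filter fun b => σ b = true).card =
          (S.filter fun b => σ b = true).card := by
        rw [filter_insert, if_neg hs']
      rw [c1, c2, if_pos hs]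
      have := ih' (k - 1)
      push_cast
      split_ifs at this ⊢ <;> omega
    · have hs' : σ z = true := by
        cases h : σ z
        · exact absurd h hs
        · rfl
      have c1 : ((insert z S).filter fun b => σ b = false).card =
          (S.filter fun b => σ b = false).card := by
        rw [filter_insert, if_neg hs]
      have c2 : ((insert z S).filter fun b => σ b = true).card =
          (S.filter fun b => σ b = true).card + 1 := by
        rw [filter_insert, if_pos hs', card_insert_of_notMem (fun hh => hz (mem_filter.1 hh).1)]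
      rw [c1, c2, if_neg hs, sub_zero]
      have := ih' k
      push_cast
      split_ifs at this ⊢ <;> omega

end walk76

section plane76

/-- abstract planar form: `W a b` is, up to the constant `D`, the wedge of the vectors
`Y a * (t a, 1)` -/
theorem odd_of_factor76 {k : ℕ} (W : Fin (2 * k + 1) → Fin (2 * k + 1) → ℝ) (Y t : Fin (2 * k + 1) → ℝ)
    (D : ℝ) (hD : D ≠ 0) (hY : ∀ a, Y a ≠ 0) (hW : ∀ a b, a ≠ b → W a b ≠ 0)
    (hf : ∀ a b, W a b * D = Y a * Y b * (t b - t a)) :
    Odd (univ.filter fun a => (univ.filter fun b => 0 < W a b).card = k).card := by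
  classical
  have hinj : Set.InjOn t (univ : Finset (Fin (2 * k + 1))) := by
    intro a _ b _ e
    by_contra hab
    have := hf a b
    rw [e, sub_self, mul_zero] at this
    rcases mul_eq_zero.1 this with h | h
    · exact hW a b hab h
    · exact hD h
  have htne : ∀ a b, a ≠ b → t a ≠ t b := fun a b hab e =>
    hab (hinj (mem_coe.2 (mem_univ a)) (mem_coe.2 (mem_univ b)) e)
  set σ : Fin (2 * k + 1) → Bool := fun a => decide (0 < Y a) with hσ
  -- the set counted by `lev76`
  have hlev : ∀ a, lev76 t σ univ a =
      ((univ.filter fun b => b ≠ a ∧ Y b * (t b - t a) < 0).card : ℤ) := by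
    intro a
    unfold lev76
    rw [← Nat.cast_add, ← card_union_of_disjoint]
    · congr 2
      ext b
      simp only [mem_union, mem_filter, mem_univ, true_and, hσ, decide_eq_true_eq,
        decide_eq_false_iff_not, not_lt]
      constructor
      · rintro (⟨h1, h2⟩ | ⟨h1, h2⟩)
        · exact ⟨fun e => by rw [e] at h2; exact lt_irrefl _ h2,
            mul_neg_of_pos_of_neg h1 (by linarith)⟩
        · have h1' : Y b < 0 := lt_of_le_of_ne h1 (hY b)
          exact ⟨fun e => by rw [e] at h2; exact lt_irrefl _ h2,
            mul_neg_of_neg_of_pos h1' (by linarith)⟩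
      · rintro ⟨hne, h⟩
        rcases lt_or_gt_of_ne (hY b) with h1 | h1
        · right
          refine ⟨h1.le, ?_⟩
          by_contra hc
          have : t b - t a ≤ 0 := by linarith
          nlinarith [mul_nonneg_of_nonpos_of_nonpos h1.le this]
        · left
          refine ⟨h1, ?_⟩
          by_contra hc
          have : 0 ≤ t b - t a := by linarith
          nlinarith [mul_nonneg h1.le this]
    · rw [Finset.disjoint_left]
      intro b h1 h2
      rw [mem_filter] at h1 h2
      rw [h1.2.1] at h2
      exact absurd h2.2.1 (by simp)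
  have hsq : 0 < D * D := mul_self_pos.2 hD
  have hsign : ∀ a b, W a b * (D * D) = (Y a * D) * (Y b * (t b - t a)) := by
    intro a b
    have := hf a b
    calc W a b * (D * D) = (W a b * D) * D := by ring
      _ = (Y a * Y b * (t b - t a)) * D := by rw [this]
      _ = _ := by ring
  have hiff : ∀ a, (univ.filter fun b => 0 < W a b).card = k ↔ lev76 t σ univ a = (k : ℤ) := by
    intro a
    rw [hlev a]
    have hWaa : W a a = 0 := by
      have := hf a a
      rw [sub_self, mul_zero] at this
      rcases mul_eq_zero.1 this with h | h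
      · exact h
      · exact absurd h hD
    have hYD : Y a * D ≠ 0 := mul_ne_zero (hY a) hD
    rcases lt_or_gt_of_ne hYD with hneg | hpos
    · have e : (univ.filter fun b => 0 < W a b) =
          univ.filter fun b => b ≠ a ∧ Y b * (t b - t a) < 0 := by
        ext b
        simp only [mem_filter, mem_univ, true_and]
        constructor
        · intro h
          have hne : b ≠ a := fun e => by rw [e, hWaa] at h; exact lt_irrefl _ h
          refine ⟨hne, ?_⟩
          have h1 : 0 < (Y a * D) * (Y b * (t b - t a)) := by
            rw [← hsign]; exact mul_pos h hsq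
          by_contra hc
          have := mul_nonpos_of_nonpos_of_nonneg hneg.le (not_lt.1 hc)
          linarith
        · rintro ⟨_, h⟩
          have h1 : 0 < W a b * (D * D) := by
            rw [hsign]; exact mul_pos_of_neg_of_neg hneg h
          exact (pos_iff_pos_of_mul_pos h1).2 hsq
      rw [e]
      exact_mod_cast Iff.rfl
    · have e : (univ.filter fun b => 0 < W a b) =
          (univ.erase a) \ univ.filter fun b => b ≠ a ∧ Y b * (t b - t a) < 0 := by
        ext b
        simp only [mem_filter, mem_univ, true_and, mem_sdiff, mem_erase, and_true, not_and, not_lt]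
        constructor
        · intro h
          have hne : b ≠ a := fun e => by rw [e, hWaa] at h; exact lt_irrefl _ h
          refine ⟨hne, fun _ => ?_⟩
          have h1 : 0 < (Y a * D) * (Y b * (t b - t a)) := by
            rw [← hsign]; exact mul_pos h hsq
          exact ((pos_iff_pos_of_mul_pos h1).1 hpos).le
        · rintro ⟨hne, h⟩
          have h0 : Y b * (t b - t a) ≠ 0 :=
            mul_ne_zero (hY b) (sub_ne_zero.2 (htne b a hne))
          have h2 : 0 < Y b * (t b - t a) := lt_of_le_of_ne (h hne) (Ne.symm h0)
          have h1 : 0 < W a b * (D * D) := by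
            rw [hsign]; exact mul_pos hpos h2
          exact (pos_iff_pos_of_mul_pos h1).2 hsq
      have hsub : (univ.filter fun b => b ≠ a ∧ Y b * (t b - t a) < 0) ⊆ univ.erase a := by
        intro b hb
        rw [mem_filter] at hb
        exact mem_erase.2 ⟨hb.2.1, mem_univ b⟩
      rw [e, card_sdiff_of_subset hsub, card_erase_of_mem (mem_univ a), card_univ, Fintype.card_fin]
      have hle := card_le_card hsub
      rw [card_erase_of_mem (mem_univ a), card_univ, Fintype.card_fin] at hle
      constructor
      · intro h; omega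
      · intro h
        have : (univ.filter fun b => b ≠ a ∧ Y b * (t b - t a) < 0).card = k := by exact_mod_cast h
        omega
  have hset : (univ.filter fun a => (univ.filter fun b => 0 < W a b).card = k) =
      univ.filter fun a => lev76 t σ univ a = (k : ℤ) := by
    apply filter_congr
    intro a _
    exact hiff a
  rw [hset]
  have hp := walk_parity76 t σ univ hinj (k : ℤ)
  have htot : (univ.filter fun b : Fin (2 * k + 1) => σ b = false).card +
      (univ.filter fun b : Fin (2 * k + 1) => σ b = true).card = 2 * k + 1 := by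
    have h := card_filter_add_card_filter_not (s := (univ : Finset (Fin (2 * k + 1))))
      (fun b => σ b = false)
    rw [card_univ, Fintype.card_fin] at h
    have e : (univ.filter fun b : Fin (2 * k + 1) => σ b = true) =
        univ.filter fun b : Fin (2 * k + 1) => ¬ σ b = false := by
      apply filter_congr
      intro b _
      cases σ b <;> simp
    rw [e]
    exact h
  rw [Nat.odd_iff]
  split_ifs at hp <;> omega

end plane76

lemma alg_aux76 (A0 A1 B0 B1 δ : ℝ) (h1 : A0 + δ * A1 ≠ 0) (h2 : B0 + δ * B1 ≠ 0) :
    A0 * B1 - A1 * B0 =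
      (A0 + δ * A1) * (B0 + δ * B1) * (B1 / (B0 + δ * B1) - A1 / (A0 + δ * A1)) := by
  have e : (A0 + δ * A1) * (B0 + δ * B1) * (B1 / (B0 + δ * B1) - A1 / (A0 + δ * A1)) =
      (A0 + δ * A1) * B1 - (B0 + δ * B1) * A1 := by
    rw [mul_sub]
    congr 1
    · rw [mul_assoc, mul_div_cancel₀ _ h2]
    · rw [mul_comm (A0 + δ * A1) (B0 + δ * B1), mul_assoc, mul_div_cancel₀ _ h1]
  rw [e]
  ring

/-- (OD12) **oddness**.  Frame from OD6.  By OD10, OD11: `card (posQ u) = k` iff exactly one of `Lb u ≤ k`, `La u ≤ k` holds, i.e. iff the `u`-th term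
of `telescope` (`t = k`, `c = 0`) is odd; `card_odd_mod_two`; the right side of `telescope` is `1` because the two cards add up to `2k+1`
(`filter_card_add_filter_neg_card_eq_card`). -/
theorem odd_halving (hq : GenQ v q) (hk : 1 ≤ k) :
    (univ.filter fun u : Ix k => (posQ v q u).card = k).card % 2 = 1 := by
  classical
  rw [← Nat.odd_iff]
  set a0 : Ix k := ⟨0, by omega⟩ with ha0
  set a1 : Ix k := ⟨1, by omega⟩ with ha1
  have h01 : a0 ≠ a1 := by
    intro e
    have := congrArg Fin.val e
    simp [ha0, ha1] at this
  obtain ⟨δ, hδ⟩ := Infinite.exists_notMem_finset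
    (univ.image fun a : Ix k => - det3 q (v a) (v a0) / det3 q (v a) (v a1))
  have hY : ∀ a, det3 q (v a) (v a0) + δ * det3 q (v a) (v a1) ≠ 0 := by
    intro a h
    by_cases ha : a = a1
    · rw [ha, det3_self23, mul_zero, add_zero] at h
      exact hq a1 a0 (Ne.symm h01) h
    · apply hδ
      rw [mem_image]
      refine ⟨a, mem_univ a, ?_⟩
      have hne := hq a a1 ha
      field_simp
      linarith
  have key := odd_of_factor76 (k := k) (fun a b => det3 q (v a) (v b))
    (fun a => det3 q (v a) (v a0) + δ * det3 q (v a) (v a1))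
    (fun a => det3 q (v a) (v a1) / (det3 q (v a) (v a0) + δ * det3 q (v a) (v a1)))
    (det3 q (v a0) (v a1)) (hq a0 a1 h01) hY hq (by
      intro a b
      have h1 := hY a
      have h2 := hY b
      show det3 q (v a) (v b) * det3 q (v a0) (v a1) =
        (det3 q (v a) (v a0) + δ * det3 q (v a) (v a1)) *
          (det3 q (v b) (v a0) + δ * det3 q (v b) (v a1)) *
          (det3 q (v b) (v a1) / (det3 q (v b) (v a0) + δ * det3 q (v b) (v a1)) -
            det3 q (v a) (v a1) / (det3 q (v a) (v a0) + δ * det3 q (v a) (v a1)))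
      have hgp := gp q (v a) (v b) (v a0) (v a1)
      have e : det3 q (v a) (v b) * det3 q (v a0) (v a1) =
          det3 q (v a) (v a0) * det3 q (v b) (v a1) - det3 q (v a) (v a1) * det3 q (v b) (v a0) := by
        linarith
      rw [e]
      exact alg_aux76 _ _ _ _ δ h1 h2)
  exact key

end Vale.Agent.P040.Sph3
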