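import Vale.Agent.P040.Sph3.Cross
import Vale.Agent.P040.Sph3.Odd

/-! # A halving state joined to its antipode by windmill moves (rows CH*) -/

namespace Vale.Agent.P040.Sph3

open Finset

variable {k : ℕ} {v : Ix k → V3}

/-- one windmill move between halving states -/
def WH (v : Ix k → V3) (a b : St k) : Prop := Hv v a ∧ Hv v b ∧ Wind a b

open Classical in
/-- (CH1) transfer of `card_states_at` to the subtype (`Finset.card_bij` / `card_image_of_injective` with `Subtype.val`, or
`Finset.card_subtype`-type lemmas; `mem_filter`, `ends`). -/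
lemma card_at_sub (v : Ix k → V3) (x : Ix k × Ix k) :
    (univ.filter fun s : {s : St k // Hv v s} => x ∈ ends v s.1).card = 0 ∨
      (univ.filter fun s : {s : St k // Hv v s} => x ∈ ends v s.1).card = 2 := by
  have key : (univ.filter fun s : {s : St k // Hv v s} => x ∈ ends v s.1).card =
      (univ.filter fun s : St k => Hv v s ∧ IsEnd v s x).card := by
    rw [← card_image_of_injective _ Subtype.val_injective]
    congr 1
    ext s
    simp only [mem_image, mem_filter, mem_univ, true_and, ends, Subtype.exists, exists_and_right,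
      exists_eq_right]
    constructor
    · rintro ⟨h1, h2⟩
      exact ⟨h1, h2⟩
    · rintro ⟨h1, h2⟩
      exact ⟨h1, h2⟩
  rw [key]
  exact card_states_at v x

open Classical in
/-- (CH2) transfer of `card_odd_states` to the subtype. -/
lemma card_odd_sub (hg : GenPos v) {q : V3} (hq : GenQ v q) (hk : 1 ≤ k) :
    (univ.filter fun s : {s : St k // Hv v s} => (∑ x ∈ ends v s.1, dq v q x) % 2 = 1).card =
      2 * (univ.filter fun u : Ix k => (posQ v q u).card = k).card := by
  rw [← card_odd_states hg hq hk]
  apply Finset.card_bij (fun s _ => s.1)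
  · intro s hs
    rw [mem_filter] at hs ⊢
    exact ⟨mem_univ _, s.2, hs.2⟩
  · intro a _ b _ hab
    exact Subtype.ext hab
  · intro s hs
    rw [mem_filter] at hs
    refine ⟨⟨s, hs.2.1⟩, ?_, rfl⟩
    rw [mem_filter]
    exact ⟨mem_univ _, hs.2.2⟩

/-- (CH3) a chain of `Sh` in the subtype gives a chain of windmill moves (induction on `ReflTransGen`; a step with equal states is dropped,
otherwise `wind_of_share`; `ends`, `mem_filter`). -/
lemma chain_of_sh {a b : {s : St k // Hv v s}}
    (h : Relation.ReflTransGen (Sh fun s : {s : St k // Hv v s} => ends v s.1) a b) :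
    Relation.ReflTransGen (WH v) a.1 b.1 := by
  induction h with
  | refl => exact Relation.ReflTransGen.refl
  | @tail c d _ h2 ih =>
    obtain ⟨x, hx1, hx2⟩ := h2
    by_cases hcd : c.1 = d.1
    · rw [← hcd]; exact ih
    · refine ih.tail ⟨c.2, d.2, wind_of_share c.2 d.2 hcd (x := x) ?_ ?_⟩
      · simpa [ends] using hx1
      · simpa [ends] using hx2

open Classical in
/-- (CH4) **existence of the chain**: `parity_chain` with `E s = ends v s.1`, `τ s = ⟨ant s.1, hv_ant hg s.2⟩`, `d = dq v q`
(`q` from `exists_genQ`); `hτ` = `ant_ant`; `hX` = CH1; `hadj`: `isEnd_ant`; `hc` = `cq_ant`; `hodd`: CH2 and `odd_halving` (`omega`); then CH3. -/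
theorem exists_chain (hg : GenPos v) (hk : 1 ≤ k) :
    ∃ s : St k, Hv v s ∧ Relation.ReflTransGen (WH v) s (ant s) := by
  obtain ⟨q, hq⟩ := exists_genQ hg hk
  have hmain := parity_chain (S := {s : St k // Hv v s}) (X := Ix k × Ix k)
    (fun s => ends v s.1) (fun s => ⟨ant s.1, hv_ant hg s.2⟩) (dq v q)
    (fun s => Subtype.ext (ant_ant s.2.1))
    (card_at_sub v)
    (by
      rintro a b ⟨x, hxa, hxb⟩
      refine ⟨(x.2, x.1), ?_, ?_⟩
      · have h1 : IsEnd v a.1 x := (mem_filter.1 hxa).2
        exact mem_filter.2 ⟨mem_univ _, isEnd_ant hg a.2.1 h1⟩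
      · have h1 : IsEnd v b.1 x := (mem_filter.1 hxb).2
        exact mem_filter.2 ⟨mem_univ _, isEnd_ant hg b.2.1 h1⟩)
    (fun s => cq_ant hg hq s.2)
    (by
      rw [card_odd_sub hg hq hk]
      have := odd_halving hq hk
      omega)
  obtain ⟨s, hs⟩ := hmain
  exact ⟨s.1, s.2, chain_of_sh hs⟩

end Vale.Agent.P040.Sph3
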