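import Vale.Agent.P040.Sph3.Vertex

/-! # Which halving states cross the great circle `q^⊥` (rows CR*) -/

namespace Vale.Agent.P040.Sph3

open Finset

variable {k : ℕ} {v : Ix k → V3} {s : St k} {q : V3}

/-- (CR1) `det3_swap23`, `hq`; unfold `dq`, split_ifs, linarith. -/
lemma dq_swap (hq : GenQ v q) {x : Ix k × Ix k} (hx : x.1 ≠ x.2) :
    dq v q (x.2, x.1) + dq v q x = 1 := by
  have h1 := hq x.1 x.2 hx
  have h2 := det3_swap23 q (v x.1) (v x.2)
  unfold dq
  simp only
  rw [h2]
  rcases lt_or_gt_of_ne h1 with h | h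
  · rw [if_neg (by linarith), if_pos h]
  · rw [if_pos (by linarith), if_neg (by linarith)]

/-- (CR2) `ends_eq`: `cq = dq (minV a) + dq (maxV b)` (`sum_pair`). -/
lemma cq_eq (hg : GenPos v) (hs : Hv v s) :
    ∃ a b, IsMin v s a ∧ IsMax v s b ∧ a ≠ b ∧ cq v q s = dq v q (minV s a) + dq v q (maxV s b) := by
  obtain ⟨a, b, ha, hb, hab, he, hne⟩ := ends_eq hg hs
  refine ⟨a, b, ha, hb, hab, ?_⟩
  unfold cq
  rw [he, sum_pair hne]

/-- (CR3) `ends_ant`, `sum_image` (`Prod.swap` injective), CR1 for the two ends (`ends_eq`): `cq (ant s) + cq s = 2`. -/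
lemma cq_ant (hg : GenPos v) (hq : GenQ v q) (hs : Hv v s) : cq v q (ant s) % 2 = cq v q s % 2 := by
  classical
  have h1 : cq v q (ant s) = ∑ x ∈ ends v s, dq v q (x.2, x.1) := by
    unfold cq
    rw [ends_ant hg hs.1, sum_image (fun x _ y _ h => Prod.swap_injective h)]
    rfl
  have h2 : cq v q (ant s) + cq v q s = ∑ x ∈ ends v s, 1 := by
    rw [h1]
    unfold cq
    rw [← sum_add_distrib]
    apply sum_congr rfl
    intro x hx
    have hx' : IsEnd v s x := by
      unfold ends at hx
      exact (mem_filter.1 hx).2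
    exact dq_swap hq hx'.1
  obtain ⟨a, b, ha, hb, hab, he, hne⟩ := ends_eq hg hs
  rw [he, sum_pair hne] at h2
  omega

/-- (CR4) unfold `dq minV rv sg`; split on `a ∈ s.2`; `det3_sm3`, `det3_swap23`. -/
lemma dq_minV (hq : GenQ v q) {a : Ix k} (ha : a ≠ s.1) :
    dq v q (minV s a) = if det3 q (v s.1) (rv v s a) < 0 then 1 else 0 := by
  unfold dq minV rv sg
  by_cases h : a ∈ s.2
  · simp only [if_pos h]
    rw [det3_sm3, one_mul]
  · simp only [if_neg h]
    rw [det3_sm3, det3_swap23 q (v s.1) (v a)]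
    have e : -1 * det3 q (v s.1) (v a) = - det3 q (v s.1) (v a) := by ring
    rw [e]

/-- (CR5) as CR4; the determinant is nonzero by `hq`. -/
lemma dq_maxV (hq : GenQ v q) {b : Ix k} (hb : b ≠ s.1) :
    dq v q (maxV s b) = if 0 < det3 q (v s.1) (rv v s b) then 1 else 0 := by
  have h0 := hq s.1 b (Ne.symm hb)
  unfold dq maxV rv sg
  by_cases h : b ∈ s.2
  · simp only [if_pos h]
    rw [det3_sm3, one_mul, det3_swap23 q (v s.1) (v b)]
    rcases lt_or_gt_of_ne h0 with h1 | h1
    · rw [if_neg (by linarith), if_neg (by linarith)]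
    · rw [if_pos (by linarith), if_pos h1]
  · simp only [if_neg h]
    rw [det3_sm3]
    rcases lt_or_gt_of_ne h0 with h1 | h1
    · rw [if_pos h1, if_pos (by linarith)]
    · rw [if_neg (by linarith), if_neg (by linarith)]

/-- (CR6) `gp (v s.1) (rv a) (rv l) (rv b) q` and `det3_cyc` (`det3 q u x = det3 u x q`):
`[a,b] [l,q] = [a,l] [b,q] + [a,q] [l,b]` with `[a,b], [a,l], [l,b] > 0` (for `l = a` or `l = b` trivial). -/
lemma between_pos {a b : Ix k} (ha : IsMin v s a) (hb : IsMax v s b) (hab : a ≠ b)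
    (h1 : 0 < det3 q (v s.1) (rv v s a)) (h2 : 0 < det3 q (v s.1) (rv v s b)) :
    ∀ l, l ≠ s.1 → 0 < det3 q (v s.1) (rv v s l) := by
  intro l hl
  by_cases hla : l = a
  · rw [hla]; exact h1
  by_cases hlb : l = b
  · rw [hlb]; exact h2
  have pab : 0 < det3 (v s.1) (rv v s a) (rv v s b) := ha.2 b hb.1 (Ne.symm hab)
  have pal : 0 < det3 (v s.1) (rv v s a) (rv v s l) := ha.2 l hl hla
  have plb : 0 < det3 (v s.1) (rv v s l) (rv v s b) := hb.2 l hl hlb
  have hgp := gp (v s.1) (rv v s a) (rv v s l) (rv v s b) q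
  rw [← det3_cyc q (v s.1) (rv v s a)] at h1
  rw [← det3_cyc q (v s.1) (rv v s b)] at h2
  rw [← det3_cyc q (v s.1) (rv v s l)]
  have h3 : det3 (v s.1) (rv v s a) (rv v s b) * det3 (v s.1) (rv v s l) q =
      det3 (v s.1) (rv v s a) (rv v s l) * det3 (v s.1) (rv v s b) q +
        det3 (v s.1) (rv v s a) q * det3 (v s.1) (rv v s l) (rv v s b) := by linarith
  have h4 : 0 < det3 (v s.1) (rv v s a) (rv v s b) * det3 (v s.1) (rv v s l) q := by
    rw [h3]; positivity
  exact (pos_iff_pos_of_mul_pos h4).1 pab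

/-- (CR7) as CR6. -/
lemma between_neg {a b : Ix k} (ha : IsMin v s a) (hb : IsMax v s b) (hab : a ≠ b)
    (h1 : det3 q (v s.1) (rv v s a) < 0) (h2 : det3 q (v s.1) (rv v s b) < 0) :
    ∀ l, l ≠ s.1 → det3 q (v s.1) (rv v s l) < 0 := by
  intro l hl
  by_cases hla : l = a
  · rw [hla]; exact h1
  by_cases hlb : l = b
  · rw [hlb]; exact h2
  have pab : 0 < det3 (v s.1) (rv v s a) (rv v s b) := ha.2 b hb.1 (Ne.symm hab)
  have pal : 0 < det3 (v s.1) (rv v s a) (rv v s l) := ha.2 l hl hla
  have plb : 0 < det3 (v s.1) (rv v s l) (rv v s b) := hb.2 l hl hlb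
  have hgp := gp (v s.1) (rv v s a) (rv v s l) (rv v s b) q
  rw [← det3_cyc q (v s.1) (rv v s a)] at h1
  rw [← det3_cyc q (v s.1) (rv v s b)] at h2
  rw [← det3_cyc q (v s.1) (rv v s l)]
  have h3 : det3 (v s.1) (rv v s a) (rv v s b) * det3 (v s.1) (rv v s l) q =
      det3 (v s.1) (rv v s a) (rv v s l) * det3 (v s.1) (rv v s b) q +
        det3 (v s.1) (rv v s a) q * det3 (v s.1) (rv v s l) (rv v s b) := by linarith
  have h5 : det3 (v s.1) (rv v s a) (rv v s l) * det3 (v s.1) (rv v s b) q < 0 :=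
    mul_neg_of_pos_of_neg pal h2
  have h6 : det3 (v s.1) (rv v s a) q * det3 (v s.1) (rv v s l) (rv v s b) < 0 :=
    mul_neg_of_neg_of_pos h1 plb
  by_contra hc
  have h7 : 0 ≤ det3 (v s.1) (rv v s a) (rv v s b) * det3 (v s.1) (rv v s l) q :=
    mul_nonneg pab.le (not_lt.1 hc)
  linarith

/-- (CR8) `(∀ l ≠ pivot, 0 < det3 q u (rv l)) ↔ s.2 = posQ v q s.1` (`det3_sm3`, `sg`, `hq`, `det3_self23` for `l = pivot`). -/
lemma all_pos_iff (hq : GenQ v q) (hs : s.1 ∉ s.2) :
    (∀ l, l ≠ s.1 → 0 < det3 q (v s.1) (rv v s l)) ↔ s.2 = posQ v q s.1 := by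
  have e : ∀ l, det3 q (v s.1) (rv v s l) = sg s.2 l * det3 q (v s.1) (v l) := by
    intro l
    unfold rv
    rw [det3_sm3]
  constructor
  · intro h
    ext l
    unfold posQ
    rw [mem_filter]
    by_cases hl : l = s.1
    · rw [hl, det3_self23]
      exact ⟨fun h' => absurd h' hs, fun h' => absurd h'.2 (lt_irrefl _)⟩
    · have h1 := h l hl
      rw [e] at h1
      unfold sg at h1
      by_cases hm : l ∈ s.2
      · rw [if_pos hm] at h1
        exact ⟨fun _ => ⟨mem_univ _, by linarith⟩, fun _ => hm⟩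
      · rw [if_neg hm] at h1
        exact ⟨fun h' => absurd h' hm, fun h' => by linarith [h'.2]⟩
  · intro h l hl
    rw [e]
    have h0 := hq s.1 l (Ne.symm hl)
    unfold sg
    by_cases hm : l ∈ s.2
    · rw [if_pos hm]
      rw [h] at hm
      unfold posQ at hm
      have := (mem_filter.1 hm).2
      linarith
    · rw [if_neg hm]
      rw [h] at hm
      unfold posQ at hm
      rw [mem_filter] at hm
      have h2 : ¬ 0 < det3 q (v s.1) (v l) := fun h' => hm ⟨mem_univ _, h'⟩
      rcases lt_or_gt_of_ne h0 with h1 | h1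
      · linarith
      · exact absurd h1 h2

/-- (CR9) `(∀ l ≠ pivot, det3 q u (rv l) < 0) ↔ (ant s).2 = posQ v q s.1`. -/
lemma all_neg_iff (hq : GenQ v q) (hs : s.1 ∉ s.2) :
    (∀ l, l ≠ s.1 → det3 q (v s.1) (rv v s l) < 0) ↔ (ant s).2 = posQ v q s.1 := by
  have e : ∀ l, det3 q (v s.1) (rv v s l) = sg s.2 l * det3 q (v s.1) (v l) := by
    intro l
    unfold rv
    rw [det3_sm3]
  have ea : ∀ l, l ∈ (ant s).2 ↔ l ≠ s.1 ∧ l ∉ s.2 := by
    intro l
    unfold ant
    simp only [mem_sdiff, mem_erase, mem_univ, and_true]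
  constructor
  · intro h
    ext l
    rw [ea]
    unfold posQ
    rw [mem_filter]
    by_cases hl : l = s.1
    · rw [hl, det3_self23]
      exact ⟨fun h' => absurd rfl h'.1, fun h' => absurd h'.2 (lt_irrefl _)⟩
    · have h1 := h l hl
      rw [e] at h1
      unfold sg at h1
      by_cases hm : l ∈ s.2
      · rw [if_pos hm] at h1
        exact ⟨fun h' => absurd hm h'.2, fun h' => by linarith [h'.2]⟩
      · rw [if_neg hm] at h1
        exact ⟨fun _ => ⟨mem_univ _, by linarith⟩, fun _ => ⟨hl, hm⟩⟩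
  · intro h l hl
    rw [e]
    have h0 := hq s.1 l (Ne.symm hl)
    have hiff : (l ≠ s.1 ∧ l ∉ s.2) ↔ 0 < det3 q (v s.1) (v l) := by
      rw [← ea, h]
      unfold posQ
      rw [mem_filter]
      exact ⟨fun h' => h'.2, fun h' => ⟨mem_univ _, h'⟩⟩
    unfold sg
    by_cases hm : l ∈ s.2
    · rw [if_pos hm]
      have h2 : ¬ 0 < det3 q (v s.1) (v l) := fun h' => (hiff.2 h').2 hm
      rcases lt_or_gt_of_ne h0 with h1 | h1
      · linarith
      · exact absurd h1 h2
    · rw [if_neg hm]
      have := hiff.1 ⟨hl, hm⟩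
      linarith

/-- (CR10) CR2, CR4 - CR9: `cq` is odd iff the two determinants at `a`, `b` have the same sign. -/
lemma cq_odd_iff (hg : GenPos v) (hq : GenQ v q) (hs : Hv v s) :
    cq v q s % 2 = 1 ↔ (s.2 = posQ v q s.1 ∨ (ant s).2 = posQ v q s.1) := by
  obtain ⟨a, b, ha, hb, hab, he⟩ := cq_eq (q := q) hg hs
  rw [he, dq_minV hq ha.1, dq_maxV hq hb.1, ← all_pos_iff hq hs.1, ← all_neg_iff hq hs.1]
  have hA : det3 q (v s.1) (rv v s a) ≠ 0 := by
    unfold rv
    rw [det3_sm3]
    exact mul_ne_zero (sg_ne_zero _ _) (hq _ _ (Ne.symm ha.1))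
  have hB : det3 q (v s.1) (rv v s b) ≠ 0 := by
    unfold rv
    rw [det3_sm3]
    exact mul_ne_zero (sg_ne_zero _ _) (hq _ _ (Ne.symm hb.1))
  constructor
  · intro h
    rcases lt_or_gt_of_ne hA with h1 | h1 <;> rcases lt_or_gt_of_ne hB with h2 | h2
    · right
      exact between_neg ha hb hab h1 h2
    · rw [if_pos h1, if_pos h2] at h
      omega
    · rw [if_neg (by linarith), if_neg (by linarith)] at h
      omega
    · left
      exact between_pos ha hb hab h1 h2
  · rintro (h | h)
    · have h1 := h a ha.1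
      have h2 := h b hb.1
      rw [if_neg (by linarith), if_pos h2]
    · have h1 := h a ha.1
      have h2 := h b hb.1
      rw [if_pos h1, if_neg (by linarith)]

/-- (CR11) the state `(u, posQ u)` has an end: `exists_first (v u) (sm (-1) q) (rv ..) (univ.erase u)` (by CR8 all `det3 q u (rv l) > 0`, and
`det3 u (sm (-1) q) x = det3 q u x`), then `isEnd_minV`. -/
lemma hv_posQ (hg : GenPos v) (hq : GenQ v q) (hk : 1 ≤ k) {u : Ix k} (h : (posQ v q u).card = k) :
    Hv v (u, posQ v q u) := by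
  have hu : u ∉ posQ v q u := by
    unfold posQ
    rw [mem_filter, det3_self23]
    exact fun h => lt_irrefl _ h.2
  have hall := (all_pos_iff (s := (u, posQ v q u)) hq hu).2 rfl
  have hne : (univ.erase u : Finset (Ix k)).Nonempty := by
    rw [← card_pos, card_erase_of_mem (mem_univ u), card_univ, Fintype.card_fin]
    omega
  obtain ⟨a, ha, hmin⟩ := exists_first (v u) (sm (-1) q) (rv v (u, posQ v q u)) (univ.erase u) hne
    (by
      intro l hl
      rw [det3_sm2, det3_swap12]
      have := hall l (mem_erase.1 hl).1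
      simp only at this
      linarith)
    (by
      intro l hl l' hl' hll
      exact Rl_total (s := (u, posQ v q u)) hg (mem_erase.1 hl).1 (mem_erase.1 hl').1 hll)
  have hm : IsMin v (u, posQ v q u) a :=
    ⟨(mem_erase.1 ha).1, fun l hl hla => hmin l (mem_erase.2 ⟨hl, mem_univ l⟩) hla⟩
  exact ⟨hu, h, _, isEnd_minV hu hm⟩

open Classical in
/-- (CR12) by CR10, CR11, `hv_ant`, `ant_ant`: the odd halving states are the `(u, posQ u)` and `ant (u, posQ u)` with `card (posQ u) = k`; these are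
different (`posQ u` is nonempty and disjoint from its complement).  E.g. the filter is the disjoint union of the images of
`{u | card (posQ u) = k}` under the two injective maps. -/
lemma card_odd_states (hg : GenPos v) (hq : GenQ v q) (hk : 1 ≤ k) :
    (univ.filter fun s : St k => Hv v s ∧ cq v q s % 2 = 1).card =
      2 * (univ.filter fun u : Ix k => (posQ v q u).card = k).card := by
  set U := univ.filter fun u : Ix k => (posQ v q u).card = k with hU
  have hu0 : ∀ u : Ix k, u ∉ posQ v q u := by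
    intro u
    unfold posQ
    rw [mem_filter, det3_self23]
    exact fun h => lt_irrefl _ h.2
  have key : (univ.filter fun s : St k => Hv v s ∧ cq v q s % 2 = 1) =
      U.image (fun u => ((u, posQ v q u) : St k)) ∪ U.image (fun u => ant ((u, posQ v q u) : St k)) := by
    ext s
    rw [mem_filter, mem_union, mem_image, mem_image]
    constructor
    · rintro ⟨-, hs, hc⟩
      rcases (cq_odd_iff hg hq hs).1 hc with h | h
      · left
        refine ⟨s.1, ?_, ?_⟩
        · rw [hU, mem_filter]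
          exact ⟨mem_univ _, by rw [← h]; exact hs.2.1⟩
        · rw [← h]
      · right
        refine ⟨s.1, ?_, ?_⟩
        · rw [hU, mem_filter]
          exact ⟨mem_univ _, by rw [← h]; exact (hv_ant hg hs).2.1⟩
        · rw [← h]
          exact ant_ant hs.1
    · rintro (⟨u, hu, rfl⟩ | ⟨u, hu, rfl⟩)
      · rw [hU, mem_filter] at hu
        have hv := hv_posQ hg hq hk hu.2
        exact ⟨mem_univ _, hv, (cq_odd_iff hg hq hv).2 (Or.inl rfl)⟩
      · rw [hU, mem_filter] at hu
        have hv := hv_posQ hg hq hk hu.2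
        have hv' := hv_ant hg hv
        refine ⟨mem_univ _, hv', (cq_odd_iff hg hq hv').2 (Or.inr ?_)⟩
        rw [ant_ant hv.1]
        rfl
  have hdisj : Disjoint (U.image (fun u => ((u, posQ v q u) : St k)))
      (U.image (fun u => ant ((u, posQ v q u) : St k))) := by
    rw [disjoint_left]
    intro s h1 h2
    obtain ⟨u, hu, rfl⟩ := mem_image.1 h1
    obtain ⟨u', hu', he⟩ := mem_image.1 h2
    have e1 : u' = u := congrArg Prod.fst he
    subst e1
    have e2 : (univ.erase u') \ posQ v q u' = posQ v q u' := congrArg Prod.snd he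
    rw [hU, mem_filter] at hu
    have hne : (posQ v q u').Nonempty := by
      rw [← card_pos, hu.2]
      omega
    obtain ⟨x, hx⟩ := hne
    have hx' := hx
    rw [← e2, mem_sdiff] at hx'
    exact hx'.2 hx
  rw [key, card_union_of_disjoint hdisj, card_image_of_injective, card_image_of_injective]
  · ring
  · intro u u' h
    exact congrArg Prod.fst h
  · intro u u' h
    exact congrArg Prod.fst h

end Vale.Agent.P040.Sph3
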