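import Mathlib

/-!
# Labelling lemma for 2k+1 vectors of R^3 (spherical Zarankiewicz): definitions

See `notes/P040_sphere_labelling_h43.md`, `notes/P040_claim_helper64.md` (windmill on the median level + parity).
Vectors `v i`, `i : Fin (2k+1)`, any three independent.  A *vertex* is an ordered pair `(i, j)`, `i ≠ j`, standing for the normal
`v i × v j` (so `(j, i)` is the antipode).  A *state* `(u, P)` stands for an arc of the circle `(v u)^⊥` of normals on which exactly the
`v l`, `l ∈ P`, are positive.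
-/

namespace Vale.Agent.P040.Sph3

open Finset

/-- vectors of `R^3` -/
abbrev V3 := ℝ × ℝ × ℝ

/-- inner product -/
def dot (a b : V3) : ℝ := a.1 * b.1 + a.2.1 * b.2.1 + a.2.2 * b.2.2

/-- vector product -/
def crs (a b : V3) : V3 :=
  (a.2.1 * b.2.2 - a.2.2 * b.2.1, a.2.2 * b.1 - a.1 * b.2.2, a.1 * b.2.1 - a.2.1 * b.1)

/-- determinant -/
def det3 (a b c : V3) : ℝ := dot a (crs b c)

/-- scalar multiple -/
def sm (t : ℝ) (a : V3) : V3 := (t * a.1, t * a.2.1, t * a.2.2)

/-- sum -/
def ad (a b : V3) : V3 := (a.1 + b.1, a.2.1 + b.2.1, a.2.2 + b.2.2)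

/-- index type -/
abbrev Ix (k : ℕ) := Fin (2 * k + 1)

/-- states (pivot, positive set) -/
abbrev St (k : ℕ) := Ix k × Finset (Ix k)

variable {k : ℕ}

/-- any three of the vectors are independent -/
def GenPos (v : Ix k → V3) : Prop :=
  ∀ i j l, i ≠ j → i ≠ l → j ≠ l → det3 (v i) (v j) (v l) ≠ 0

/-- the vectors that are positive at the vertex `v i × v j` -/
noncomputable def posV (v : Ix k → V3) (i j : Ix k) : Finset (Ix k) :=
  univ.filter fun l => 0 < det3 (v i) (v j) (v l)

/-- the vertex `x` is an end of the arc `s` -/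
def IsEnd (v : Ix k → V3) (s : St k) (x : Ix k × Ix k) : Prop :=
  x.1 ≠ x.2 ∧ (s.1 = x.1 ∨ s.1 = x.2) ∧ posV v x.1 x.2 = (s.2.erase x.1).erase x.2

/-- halving states -/
def Hv (v : Ix k → V3) (s : St k) : Prop := s.1 ∉ s.2 ∧ s.2.card = k ∧ ∃ x, IsEnd v s x

/-- the antipodal state -/
def ant (s : St k) : St k := (s.1, (univ.erase s.1) \ s.2)

/-- windmill move in terms of sets -/
def Wind (s s' : St k) : Prop :=
  (s'.1 ∈ s.2 ∧ s'.2 = insert s.1 (s.2.erase s'.1)) ∨ (s'.1 ∉ s.2 ∧ s'.1 ≠ s.1 ∧ s'.2 = s.2)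

/-- sign of `l` in the state -/
def sg (P : Finset (Ix k)) (l : Ix k) : ℝ := if l ∈ P then 1 else -1

/-- reoriented vector -/
def rv (v : Ix k → V3) (s : St k) (l : Ix k) : V3 := sm (sg s.2 l) (v l)

/-- the order of the reoriented vectors around the pivot -/
def Rl (v : Ix k → V3) (s : St k) (l l' : Ix k) : Prop := 0 < det3 (v s.1) (rv v s l) (rv v s l')

/-- first reoriented vector -/
def IsMin (v : Ix k → V3) (s : St k) (j : Ix k) : Prop := j ≠ s.1 ∧ ∀ l, l ≠ s.1 → l ≠ j → Rl v s j l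

/-- last reoriented vector -/
def IsMax (v : Ix k → V3) (s : St k) (j : Ix k) : Prop := j ≠ s.1 ∧ ∀ l, l ≠ s.1 → l ≠ j → Rl v s l j

/-- the vertex `v u × rv j` -/
def minV (s : St k) (j : Ix k) : Ix k × Ix k := if j ∈ s.2 then (s.1, j) else (j, s.1)

/-- the vertex `rv j × v u` -/
def maxV (s : St k) (j : Ix k) : Ix k × Ix k := if j ∈ s.2 then (j, s.1) else (s.1, j)

/-- the normal `n` realises the state `s` -/
def Rz (v : Ix k → V3) (s : St k) (n : V3) : Prop :=
  dot n (v s.1) = 0 ∧ ∀ l, l ≠ s.1 → ((l ∈ s.2 → 0 < dot n (v l)) ∧ (l ∉ s.2 → dot n (v l) < 0))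

/-- the auxiliary point `q` is generic -/
def GenQ (v : Ix k → V3) (q : V3) : Prop := ∀ i j, i ≠ j → det3 q (v i) (v j) ≠ 0

/-- side of the vertex with respect to `q^⊥` -/
noncomputable def dq (v : Ix k → V3) (q : V3) (x : Ix k × Ix k) : ℕ :=
  if det3 q (v x.1) (v x.2) < 0 then 1 else 0

open Classical in
/-- the set of ends of a state -/
noncomputable def ends (v : Ix k → V3) (s : St k) : Finset (Ix k × Ix k) := univ.filter fun x => IsEnd v s x

/-- number of ends on the negative side of `q^⊥` -/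
noncomputable def cq (v : Ix k → V3) (q : V3) (s : St k) : ℕ := ∑ x ∈ ends v s, dq v q x

/-- the vectors on the positive side of the great circle through `q` and `v u` -/
noncomputable def posQ (v : Ix k → V3) (q : V3) (u : Ix k) : Finset (Ix k) :=
  univ.filter fun l => 0 < det3 q (v u) (v l)

/-- `a` can be removed from `S`: a great circle through `v a`, the rest of `S` on its positive side, at most `k` vectors there -/
def Rem (v : Ix k → V3) (S : Finset (Ix k)) (a : Ix k) (n : V3) : Prop :=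
  dot n (v a) = 0 ∧ (∀ l, l ≠ a → dot n (v l) ≠ 0) ∧ (univ.filter fun l => 0 < dot n (v l)).card ≤ k ∧
    ∀ x ∈ S, x ≠ a → 0 < dot n (v x)

end Vale.Agent.P040.Sph3
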