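import Vale.Agent.P040.Sph3.Order

/-! # The two ends of a halving state (rows EN*) -/

namespace Vale.Agent.P040.Sph3

open Finset

variable {k : ℕ} {v : Ix k → V3} {s : St k}

/-- (EN0) `Rl` is asymmetric (`Rl_iff`, `det3_swap23`). -/
lemma Rl_asymm {l l' : Ix k} (h : Rl v s l l') : ¬ Rl v s l' l := by
  intro h'
  unfold Rl at h h'
  rw [det3_swap23] at h'
  linarith

/-- (EN1) nonvanishing: `Rl_iff`, `sg_ne_zero`, `GenPos`. -/
lemma Rl_total (hg : GenPos v) {l l' : Ix k} (h1 : l ≠ s.1) (h2 : l' ≠ s.1) (h3 : l ≠ l') :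
    det3 (v s.1) (rv v s l) (rv v s l') ≠ 0 := by
  unfold rv
  rw [det3_sm2, det3_sm3]
  exact mul_ne_zero (sg_ne_zero s.2 l) (mul_ne_zero (sg_ne_zero s.2 l')
    (hg _ _ _ (Ne.symm h1) (Ne.symm h2) h3))

/-- (EN2) an end of the form `(pivot, j)`.  For `l ≠ pivot, j`: membership of `l` in both sides of the set equality in `IsEnd` gives
`l ∈ s.2 ↔ 0 < det3 (v s.1) (v j) (v l)`; the determinant is nonzero (`hg`); rewrite `Rl` by `Rl_iff`, unfold `sg`, split cases. -/
lemma end_fst (hg : GenPos v) (hs : s.1 ∉ s.2) {j : Ix k} (h : IsEnd v s (s.1, j)) :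
    (j ∈ s.2 → IsMin v s j) ∧ (j ∉ s.2 → IsMax v s j) := by
  obtain ⟨hne, _, hset⟩ := h
  have hne' : s.1 ≠ j := hne
  have key : ∀ l, l ≠ s.1 → l ≠ j → (0 < det3 (v s.1) (v j) (v l) ↔ l ∈ s.2) := by
    intro l h1 h2
    have h3 : l ∈ posV v s.1 j ↔ l ∈ (s.2.erase s.1).erase j := by
      have := hset
      simp only at this
      rw [this]
    simp only [posV, mem_filter, mem_univ, true_and, mem_erase] at h3
    rw [h3]
    constructor
    · intro h4; exact h4.2.2
    · intro h4; exact ⟨h2, h1, h4⟩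
  have hnz : ∀ l, l ≠ s.1 → l ≠ j → det3 (v s.1) (v j) (v l) ≠ 0 := fun l h1 h2 =>
    hg s.1 j l hne' (Ne.symm h1) (Ne.symm h2)
  constructor
  · intro hj
    refine ⟨hne'.symm, fun l h1 h2 => ?_⟩
    rw [Rl_iff]
    unfold sg
    rw [if_pos hj]
    by_cases hl : l ∈ s.2
    · rw [if_pos hl]
      have := (key l h1 h2).2 hl
      linarith
    · rw [if_neg hl]
      have h3 : ¬ 0 < det3 (v s.1) (v j) (v l) := fun h4 => hl ((key l h1 h2).1 h4)
      have h4 : det3 (v s.1) (v j) (v l) < 0 := lt_of_le_of_ne (not_lt.1 h3) (hnz l h1 h2)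
      linarith
  · intro hj
    refine ⟨hne'.symm, fun l h1 h2 => ?_⟩
    rw [Rl_iff, det3_swap23]
    unfold sg
    rw [if_neg hj]
    by_cases hl : l ∈ s.2
    · rw [if_pos hl]
      have := (key l h1 h2).2 hl
      linarith
    · rw [if_neg hl]
      have h3 : ¬ 0 < det3 (v s.1) (v j) (v l) := fun h4 => hl ((key l h1 h2).1 h4)
      have h4 : det3 (v s.1) (v j) (v l) < 0 := lt_of_le_of_ne (not_lt.1 h3) (hnz l h1 h2)
      linarith

/-- (EN3) an end of the form `(i, pivot)`; as EN2 with `det3_swap12`. -/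
lemma end_snd (hg : GenPos v) (hs : s.1 ∉ s.2) {i : Ix k} (h : IsEnd v s (i, s.1)) :
    (i ∈ s.2 → IsMax v s i) ∧ (i ∉ s.2 → IsMin v s i) := by
  obtain ⟨h1, -, h3⟩ := h
  simp only at h1 h3
  have key : ∀ l, l ≠ s.1 → l ≠ i → 0 < sg s.2 l * det3 (v i) (v s.1) (v l) := by
    intro l hl1 hl2
    have hm : l ∈ posV v i s.1 ↔ l ∈ (s.2.erase i).erase s.1 := by rw [h3]
    simp only [posV, mem_filter, mem_univ, true_and, mem_erase, ne_eq, hl1, hl2, not_false_eq_true]
      at hm
    have hne : det3 (v i) (v s.1) (v l) ≠ 0 := hg i s.1 l h1 (Ne.symm hl2) (Ne.symm hl1)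
    unfold sg
    split_ifs with hl
    · have := hm.2 hl
      linarith
    · have h5 : ¬ 0 < det3 (v i) (v s.1) (v l) := fun h6 => hl (hm.1 h6)
      have h6 : det3 (v i) (v s.1) (v l) < 0 := lt_of_le_of_ne (not_lt.1 h5) hne
      linarith
  constructor
  · intro hi
    refine ⟨h1, fun l hl1 hl2 => ?_⟩
    rw [Rl_iff, det3_cyc (v i) (v s.1) (v l)]
    have := key l hl1 hl2
    have e : sg s.2 i = 1 := by unfold sg; rw [if_pos hi]
    rw [e]
    linarith
  · intro hi
    refine ⟨h1, fun l hl1 hl2 => ?_⟩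
    rw [Rl_iff, det3_swap12 (v i) (v s.1) (v l)]
    have := key l hl1 hl2
    have e : sg s.2 i = -1 := by unfold sg; rw [if_neg hi]
    rw [e]
    linarith

/-- (EN4) `ext l`; `l = pivot` or `l = j`: both sides false (`det3_self*`, `mem_erase`); otherwise `Rl_iff` of `h.2 l`, cases on `j ∈ s.2`,
`l ∈ s.2` (unfold `sg`, `minV`). -/
lemma isEnd_minV (hs : s.1 ∉ s.2) {j : Ix k} (h : IsMin v s j) : IsEnd v s (minV s j) := by
  obtain ⟨hj, hall⟩ := h
  unfold minV
  by_cases hjs : j ∈ s.2
  · rw [if_pos hjs]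
    refine ⟨fun e => hj e.symm, Or.inl rfl, ?_⟩
    ext l
    simp only [posV, mem_filter, mem_univ, true_and, mem_erase]
    by_cases hl1 : l = s.1
    · subst hl1
      simp [det3_self13]
    by_cases hl2 : l = j
    · subst hl2
      simp [det3_self23]
    have hR := (Rl_iff v s j l).1 (hall l hl1 hl2)
    unfold sg at hR
    rw [if_pos hjs] at hR
    by_cases hls : l ∈ s.2
    · rw [if_pos hls] at hR
      constructor
      · intro _; exact ⟨hl2, hl1, hls⟩
      · intro _; linarith
    · rw [if_neg hls] at hR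
      constructor
      · intro h0; exfalso; linarith
      · intro h0; exact absurd h0.2.2 hls
  · rw [if_neg hjs]
    refine ⟨hj, Or.inr rfl, ?_⟩
    ext l
    simp only [posV, mem_filter, mem_univ, true_and, mem_erase]
    by_cases hl1 : l = s.1
    · subst hl1
      simp [det3_self23]
    by_cases hl2 : l = j
    · subst hl2
      simp [det3_self13]
    have hR := (Rl_iff v s j l).1 (hall l hl1 hl2)
    unfold sg at hR
    rw [if_neg hjs] at hR
    rw [det3_swap12]
    by_cases hls : l ∈ s.2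
    · rw [if_pos hls] at hR
      constructor
      · intro _; exact ⟨hl1, hl2, hls⟩
      · intro _; linarith
    · rw [if_neg hls] at hR
      constructor
      · intro h0; exfalso; linarith
      · intro h0; exact absurd h0.2.2 hls

/-- (EN5) as EN4. -/
lemma isEnd_maxV (hs : s.1 ∉ s.2) {j : Ix k} (h : IsMax v s j) : IsEnd v s (maxV s j) := by
  obtain ⟨hj, hm⟩ := h
  unfold maxV
  by_cases hjs : j ∈ s.2
  · rw [if_pos hjs]
    refine ⟨hj, Or.inr rfl, ?_⟩
    ext l
    simp only [posV, mem_filter, mem_univ, true_and, mem_erase]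
    by_cases h1 : l = s.1
    · subst h1
      simp [det3_self23]
    by_cases h2 : l = j
    · subst h2
      simp [det3_self13]
    have h3 := (Rl_iff v s l j).mp (hm l h1 h2)
    rw [← det3_cyc (v j) (v s.1) (v l)]
    have e1 : sg s.2 j = 1 := by simp [sg, hjs]
    rw [e1] at h3
    by_cases hl : l ∈ s.2
    · have e2 : sg s.2 l = 1 := by simp [sg, hl]
      rw [e2] at h3
      constructor
      · intro _
        exact ⟨h1, h2, hl⟩
      · intro _
        linarith
    · have e2 : sg s.2 l = -1 := by simp [sg, hl]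
      rw [e2] at h3
      constructor
      · intro h4
        linarith
      · intro h4
        exact absurd h4.2.2 hl
  · rw [if_neg hjs]
    refine ⟨Ne.symm hj, Or.inl rfl, ?_⟩
    ext l
    simp only [posV, mem_filter, mem_univ, true_and, mem_erase]
    by_cases h1 : l = s.1
    · subst h1
      simp [det3_self13]
    by_cases h2 : l = j
    · subst h2
      simp [det3_self23]
    have h3 := (Rl_iff v s l j).mp (hm l h1 h2)
    rw [det3_swap23 (v s.1) (v l) (v j)]
    have e1 : sg s.2 j = -1 := by simp [sg, hjs]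
    rw [e1] at h3
    by_cases hl : l ∈ s.2
    · have e2 : sg s.2 l = 1 := by simp [sg, hl]
      rw [e2] at h3
      constructor
      · intro _
        exact ⟨h2, h1, hl⟩
      · intro _
        linarith
    · have e2 : sg s.2 l = -1 := by simp [sg, hl]
      rw [e2] at h3
      constructor
      · intro h4
        linarith
      · intro h4
        exact absurd h4.2.2 hl

/-- (EN6) from EN2 - EN5 (`x = (x.1, x.2)`, the pivot is `x.1` or `x.2`; unfold `minV`, `maxV`). -/
lemma isEnd_iff (hg : GenPos v) (hs : s.1 ∉ s.2) (x : Ix k × Ix k) :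
    IsEnd v s x ↔ (∃ j, IsMin v s j ∧ x = minV s j) ∨ (∃ j, IsMax v s j ∧ x = maxV s j) := by
  constructor
  · intro h
    obtain ⟨x1, x2⟩ := x
    rcases h.2.1 with h1 | h1
    · simp only at h1
      subst h1
      have h2 := end_fst hg hs h
      by_cases hj : x2 ∈ s.2
      · left
        exact ⟨x2, h2.1 hj, by unfold minV; rw [if_pos hj]⟩
      · right
        exact ⟨x2, h2.2 hj, by unfold maxV; rw [if_neg hj]⟩
    · simp only at h1
      subst h1
      have h2 := end_snd hg hs h
      by_cases hj : x1 ∈ s.2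
      · right
        exact ⟨x1, h2.1 hj, by unfold maxV; rw [if_pos hj]⟩
      · left
        exact ⟨x1, h2.2 hj, by unfold minV; rw [if_neg hj]⟩
  · rintro (⟨j, hj, rfl⟩ | ⟨j, hj, rfl⟩)
    · exact isEnd_minV hs hj
    · exact isEnd_maxV hs hj

/-- (EN7) `Rl_asymm`. -/
lemma isMin_unique {j j' : Ix k} (h : IsMin v s j) (h' : IsMin v s j') : j = j' := by
  by_contra hne
  exact Rl_asymm (h.2 j' h'.1 (Ne.symm hne)) (h'.2 j h.1 hne)

/-- (EN8) `Rl_asymm`. -/
lemma isMax_unique {j j' : Ix k} (h : IsMax v s j) (h' : IsMax v s j') : j = j' := by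
  by_contra hne
  exact Rl_asymm (h.2 j' h'.1 (Ne.symm hne)) (h'.2 j h.1 hne)

/-- (EN9) `exists_last (v s.1) (rv v s a) (rv v s) ((univ.erase s.1).erase a)`; nonempty because `2k+1 ≥ 3` (card); `hy` = `h.2`;
`hne` = `Rl_total`; the element found is also after `a` by `h.2`. -/
lemma exists_max_of_min (hg : GenPos v) (hk : 1 ≤ k) {a : Ix k} (h : IsMin v s a) :
    ∃ b, IsMax v s b := by
  have hW : ((univ.erase s.1).erase a : Finset (Ix k)).Nonempty := by
    rw [← Finset.card_pos]
    have h1 : a ∈ (univ.erase s.1 : Finset (Ix k)) := mem_erase.2 ⟨h.1, mem_univ _⟩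
    rw [card_erase_of_mem h1, card_erase_of_mem (mem_univ _), card_univ, Fintype.card_fin]
    omega
  obtain ⟨b, hb, hlast⟩ := exists_last (v s.1) (rv v s a) (rv v s) ((univ.erase s.1).erase a) hW
    (by
      intro l hl
      rw [mem_erase, mem_erase] at hl
      exact h.2 l hl.2.1 hl.1)
    (by
      intro l hl l' hl' hne
      rw [mem_erase, mem_erase] at hl hl'
      exact Rl_total hg hl.2.1 hl'.2.1 hne)
  rw [mem_erase, mem_erase] at hb
  refine ⟨b, hb.2.1, fun l hl1 hl2 => ?_⟩
  by_cases hla : l = a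
  · subst hla
    exact h.2 b hb.2.1 hb.1
  · exact hlast l (by rw [mem_erase, mem_erase]; exact ⟨hla, hl1, mem_univ _⟩) hl2

/-- (EN10) `exists_first (v s.1) (sm (-1) (rv v s b)) ...` (`det3_sm2`, `det3_swap23`). -/
lemma exists_min_of_max (hg : GenPos v) (hk : 1 ≤ k) {b : Ix k} (h : IsMax v s b) :
    ∃ a, IsMin v s a := by
  obtain ⟨hb, hall⟩ := h
  have hW : ((univ.erase s.1).erase b : Finset (Ix k)).Nonempty := by
    rw [← Finset.card_pos]
    rw [card_erase_of_mem (by simp [hb]), card_erase_of_mem (mem_univ _), card_univ,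
      Fintype.card_fin]
    omega
  obtain ⟨a, haW, ha⟩ := exists_first (v s.1) (sm (-1) (rv v s b)) (rv v s)
    ((univ.erase s.1).erase b) hW
    (by
      intro l hl
      simp only [mem_erase, mem_univ, and_true] at hl
      have h1 : 0 < det3 (v s.1) (rv v s l) (rv v s b) := hall l hl.2 hl.1
      rw [det3_sm2, det3_swap23]
      linarith)
    (by
      intro l hl l' hl' hne
      simp only [mem_erase, mem_univ, and_true] at hl hl'
      exact Rl_total hg hl.2 hl'.2 hne)
  simp only [mem_erase, mem_univ, and_true] at haW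
  refine ⟨a, haW.2, ?_⟩
  intro l hl1 hl2
  by_cases hlb : l = b
  · subst hlb
    exact hall a haW.2 haW.1
  · exact ha l (by simp [hl1, hlb]) hl2

/-- (EN11) a third index `l ≠ s.1, a` exists (`2k+1 ≥ 3`); `Rl a l` and `Rl l a` contradict `Rl_asymm`. -/
lemma min_ne_max (hk : 1 ≤ k) {a b : Ix k} (h : IsMin v s a) (h' : IsMax v s b) : a ≠ b := by
  rintro rfl
  have hcard : 2 < (univ : Finset (Ix k)).card := by
    rw [card_univ, Fintype.card_fin]
    omega
  have h2 : ({s.1, a} : Finset (Ix k)).card ≤ 2 := card_le_two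
  obtain ⟨l, -, hl⟩ := exists_mem_notMem_of_card_lt_card (lt_of_le_of_lt h2 hcard)
  simp only [mem_insert, mem_singleton, not_or] at hl
  exact Rl_asymm (h.2 l hl.1 hl.2) (h'.2 l hl.1 hl.2)

/-- (EN12) `Hv` needs two different indices. -/
lemma one_le_of_hv (hs : Hv v s) : 1 ≤ k := by
  obtain ⟨_, _, x, hx, _⟩ := hs
  by_contra hk
  have hk0 : k = 0 := by omega
  subst hk0
  apply hx
  have h1 := x.1.isLt
  have h2 := x.2.isLt
  exact Fin.ext (by omega)

/-- (EN13) from EN6 - EN12.  `minV s a ≠ maxV s b` because `a ≠ b`, `a, b ≠ s.1` (compare the components; unfold, split_ifs). -/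
lemma ends_eq (hg : GenPos v) (hs : Hv v s) :
    ∃ a b, IsMin v s a ∧ IsMax v s b ∧ a ≠ b ∧ ends v s = {minV s a, maxV s b} ∧
      minV s a ≠ maxV s b := by
  classical
  have hk : 1 ≤ k := one_le_of_hv hs
  obtain ⟨hs1, -, x, hx⟩ := hs
  have hab : ∃ a b, IsMin v s a ∧ IsMax v s b := by
    rcases (isEnd_iff hg hs1 x).1 hx with ⟨j, hj, -⟩ | ⟨j, hj, -⟩
    · obtain ⟨b, hb⟩ := exists_max_of_min hg hk hj
      exact ⟨j, b, hj, hb⟩
    · obtain ⟨a, ha⟩ := exists_min_of_max hg hk hj
      exact ⟨a, j, ha, hj⟩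
  obtain ⟨a, b, ha, hb⟩ := hab
  have hne : a ≠ b := min_ne_max hk ha hb
  refine ⟨a, b, ha, hb, hne, ?_, ?_⟩
  · ext y
    unfold ends
    rw [mem_filter, mem_insert, mem_singleton, isEnd_iff hg hs1 y]
    constructor
    · rintro ⟨-, ⟨j, hj, rfl⟩ | ⟨j, hj, rfl⟩⟩
      · left
        rw [isMin_unique hj ha]
      · right
        rw [isMax_unique hj hb]
    · rintro (rfl | rfl)
      · exact ⟨mem_univ _, Or.inl ⟨a, ha, rfl⟩⟩
      · exact ⟨mem_univ _, Or.inr ⟨b, hb, rfl⟩⟩
  · have ha1 : a ≠ s.1 := ha.1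
    have hb1 : b ≠ s.1 := hb.1
    unfold minV maxV
    intro h
    split_ifs at h
    · exact hb1 (Prod.ext_iff.1 h).1.symm
    · exact hne (Prod.ext_iff.1 h).2
    · exact hne (Prod.ext_iff.1 h).1
    · exact ha1 (Prod.ext_iff.1 h).1

/-- (EN14) `n = ad (crs (v s.1) (rv v s a)) (crs (rv v s b) (v s.1))` with `a, b` from EN13.  `dot n (v s.1) = 0` (`dot_ad`, `dot_crs`,
`det3_self*`).  For `l ≠ s.1`: `sg l * dot n (v l) = det3 u (rv a) (rv l) + det3 u (rv l) (rv b)` (`dot_ad`, `dot_crs`, `det3_sm3`, `det3_cyc`),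
both terms are `≥ 0` and at least one is `> 0` (`l = a`, `l = b` or neither; `det3_self23`).  Then split on `l ∈ s.2` (`sg`). -/
lemma exists_rz (hg : GenPos v) (hs : Hv v s) : ∃ n, Rz v s n := by
  obtain ⟨a, b, ha, hb, hab, -, -⟩ := ends_eq hg hs
  refine ⟨ad (crs (v s.1) (rv v s a)) (crs (rv v s b) (v s.1)), ?_, ?_⟩
  · rw [dot_ad, dot_crs, dot_crs, det3_self13, det3_self23]
    ring
  · intro l hl
    have hT : sg s.2 l * dot (ad (crs (v s.1) (rv v s a)) (crs (rv v s b) (v s.1))) (v l) =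
        det3 (v s.1) (rv v s a) (rv v s l) + det3 (v s.1) (rv v s l) (rv v s b) := by
      rw [dot_ad, dot_crs, dot_crs, det3_cyc (rv v s b) (v s.1) (rv v s l)]
      have e1 : det3 (v s.1) (rv v s a) (rv v s l) = sg s.2 l * det3 (v s.1) (rv v s a) (v l) := by
        conv_lhs => rw [show rv v s l = sm (sg s.2 l) (v l) from rfl]
        rw [det3_sm3]
      have e2 : det3 (rv v s b) (v s.1) (rv v s l) = sg s.2 l * det3 (rv v s b) (v s.1) (v l) := by
        conv_lhs => rw [show rv v s l = sm (sg s.2 l) (v l) from rfl]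
        rw [det3_sm3]
      rw [e1, e2]
      ring
    have hpos : 0 < det3 (v s.1) (rv v s a) (rv v s l) + det3 (v s.1) (rv v s l) (rv v s b) := by
      by_cases h1 : l = a
      · subst h1
        rw [det3_self23]
        have := hb.2 l hl hab
        unfold Rl at this
        linarith
      · have p1 := ha.2 l hl h1
        unfold Rl at p1
        by_cases h2 : l = b
        · subst h2
          rw [det3_self23]
          linarith
        · have p2 := hb.2 l hl h2
          unfold Rl at p2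
          linarith
    rw [← hT] at hpos
    constructor
    · intro hm
      unfold sg at hpos
      rw [if_pos hm] at hpos
      linarith
    · intro hm
      unfold sg at hpos
      rw [if_neg hm] at hpos
      linarith

end Vale.Agent.P040.Sph3
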