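import Vale.Agent.P040.Sph3.Chain

/-! # From the chain to the labelling (rows LB*) -/

namespace Vale.Agent.P040.Sph3

open Finset

variable {k : ℕ} {v : Ix k → V3}

/-- (LB1) the first element of `A'` that leaves the positive set is the new pivot.  `Relation.ReflTransGen.head_induction_on`: for the first move
`s → s1`: if `A' ⊆ s1.2` use the induction hypothesis; otherwise the move is of the first kind, the new pivot `s1.1` is in `A'` and `r = s1`. -/
lemma rem_state {s t : St k} (h : Relation.ReflTransGen (WH v) s t) (A' : Finset (Ix k))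
    (hA : A' ⊆ s.2) (hne : ¬ A' ⊆ t.2) :
    ∃ r : St k, Hv v r ∧ r.1 ∈ A' ∧ A'.erase r.1 ⊆ r.2 := by
  revert hA
  induction h using Relation.ReflTransGen.head_induction_on with
  | refl => intro hA; exact absurd hA hne
  | @head s s1 h1 _ ih =>
    intro hA
    obtain ⟨_, hs1, hw⟩ := h1
    by_cases hsub : A' ⊆ s1.2
    · exact ih hsub
    · rcases hw with ⟨_, h2⟩ | ⟨_, _, h2⟩
      · obtain ⟨x, hxA, hx⟩ := Finset.not_subset.mp hsub
        have hxs : x ∈ s.2 := hA hxA
        have hx1 : x = s1.1 := by
          by_contra hc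
          apply hx
          rw [h2]
          exact Finset.mem_insert_of_mem (Finset.mem_erase.mpr ⟨hc, hxs⟩)
        refine ⟨s1, hs1, hx1 ▸ hxA, ?_⟩
        intro y hy
        obtain ⟨hy1, hy2⟩ := Finset.mem_erase.mp hy
        rw [h2]
        exact Finset.mem_insert_of_mem (Finset.mem_erase.mpr ⟨hy1, hA hy2⟩)
      · exact absurd (h2 ▸ hA) hsub

/-- (LB2) the antipodal chain (`wind_ant`, `hv_ant`; induction). -/
lemma chain_ant (hg : GenPos v) {s t : St k} (h : Relation.ReflTransGen (WH v) s t) :
    Relation.ReflTransGen (WH v) (ant s) (ant t) := by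
  induction h with
  | refl => exact Relation.ReflTransGen.refl
  | tail _ hbc ih =>
    exact ih.tail ⟨hv_ant hg hbc.1, hv_ant hg hbc.2.1, wind_ant hbc.1.1 hbc.2.1.1 hbc.2.2⟩

/-- (LB3) a halving state gives a removing circle: `n` from `exists_rz`; the positive set of `n` is `r.2` (card `k`). -/
lemma rem_of_state (hg : GenPos v) {r : St k} (hr : Hv v r) (A' : Finset (Ix k))
    (hA : A'.erase r.1 ⊆ r.2) : ∃ n, Rem v A' r.1 n := by
  obtain ⟨n, hn0, hn⟩ := exists_rz hg hr
  refine ⟨n, hn0, ?_, ?_, ?_⟩
  · intro l hl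
    by_cases hm : l ∈ r.2
    · exact ne_of_gt ((hn l hl).1 hm)
    · exact ne_of_lt ((hn l hl).2 hm)
  · have e : (univ.filter fun l => 0 < dot n (v l)) = r.2 := by
      ext l
      simp only [mem_filter, mem_univ, true_and]
      constructor
      · intro h
        by_cases hl : l = r.1
        · rw [hl, hn0] at h
          exact absurd h (lt_irrefl _)
        · by_contra hm
          exact absurd h (not_lt.2 ((hn l hl).2 hm).le)
      · intro hm
        have hl : l ≠ r.1 := fun e => hr.1 (e ▸ hm)
        exact (hn l hl).1 hm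
    rw [e, hr.2.1]
  · intro x hx hxa
    exact (hn x hxa).1 (hA (mem_erase.2 ⟨hxa, hx⟩))

/-- (LB4) every nonempty subset of the positive set of the start of a chain `s → ant s` has a removable element
(LB1 with `t = ant s`: `A'` is nonempty and disjoint from `(ant s).2`; LB3). -/
lemma removable (hg : GenPos v) {s : St k} (h : Relation.ReflTransGen (WH v) s (ant s))
    (A' : Finset (Ix k)) (hA : A' ⊆ s.2) (hne : A'.Nonempty) : ∃ a ∈ A', ∃ n, Rem v A' a n := by
  have hne' : ¬ A' ⊆ (ant s).2 := by
    intro hsub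
    obtain ⟨a, ha⟩ := hne
    have h1 := hsub ha
    have h2 := hA ha
    simp only [ant, Finset.mem_sdiff] at h1
    exact h1.2 h2
  obtain ⟨r, hr, hrA, hsub⟩ := rem_state h A' hA hne'
  exact ⟨r.1, hrA, rem_of_state hg hr A' hsub⟩

/-- (LB5) peeling.  Induction on `A.card` (generalising `A`): remove a removable `a` of `A`, apply the hypothesis to `A.erase a`, extend
`f` by `f a = (A.erase a).card` and `n` by the circle of `a` (`Function.update`).  `Rem` is monotone in the set. -/
lemma peel (A : Finset (Ix k)) (h : ∀ A' ⊆ A, A'.Nonempty → ∃ a ∈ A', ∃ n, Rem v A' a n) :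
    ∃ (f : Ix k → ℕ) (n : Ix k → V3), (∀ a ∈ A, f a < A.card) ∧
      (∀ a ∈ A, ∀ b ∈ A, f a = f b → a = b) ∧
      ∀ a ∈ A, Rem v (A.filter fun x => f x < f a) a (n a) := by
  classical
  suffices H : ∀ m : ℕ, ∀ A : Finset (Ix k), A.card = m →
      (∀ A' ⊆ A, A'.Nonempty → ∃ a ∈ A', ∃ n, Rem v A' a n) →
      ∃ (f : Ix k → ℕ) (n : Ix k → V3), (∀ a ∈ A, f a < m) ∧
        (∀ a ∈ A, ∀ b ∈ A, f a = f b → a = b) ∧
        ∀ a ∈ A, Rem v (A.filter fun x => f x < f a) a (n a) from H A.card A rfl h
  intro m
  induction m with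
  | zero =>
    intro A hA _
    rw [card_eq_zero] at hA
    subst hA
    exact ⟨fun _ => 0, fun _ => (0, 0, 0), by simp, by simp, by simp⟩
  | succ m ih =>
    intro A hA h
    have hne : A.Nonempty := by rw [← card_pos]; omega
    obtain ⟨a, haA, n0, hrem⟩ := h A (Subset.refl _) hne
    have hcard : (A.erase a).card = m := by rw [card_erase_of_mem haA]; omega
    obtain ⟨f, n, h1, h2, h3⟩ := ih (A.erase a) hcard
      (fun A' hA' hne' => h A' (hA'.trans (erase_subset _ _)) hne')
    refine ⟨Function.update f a m, Function.update n a n0, ?_, ?_, ?_⟩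
    · intro b hb
      by_cases hba : b = a
      · subst hba; rw [Function.update_self]; omega
      · rw [Function.update_of_ne hba]
        have := h1 b (mem_erase.2 ⟨hba, hb⟩)
        omega
    · intro b hb c hc hbc
      by_cases hba : b = a
      · by_cases hca : c = a
        · rw [hba, hca]
        · exfalso
          rw [hba, Function.update_self, Function.update_of_ne hca] at hbc
          have := h1 c (mem_erase.2 ⟨hca, hc⟩)
          omega
      · by_cases hca : c = a
        · exfalso
          rw [hca, Function.update_self, Function.update_of_ne hba] at hbc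
          have := h1 b (mem_erase.2 ⟨hba, hb⟩)
          omega
        · rw [Function.update_of_ne hba, Function.update_of_ne hca] at hbc
          exact h2 b (mem_erase.2 ⟨hba, hb⟩) c (mem_erase.2 ⟨hca, hc⟩) hbc
    · intro b hb
      by_cases hba : b = a
      · subst hba
        rw [Function.update_self, Function.update_self]
        exact ⟨hrem.1, hrem.2.1, hrem.2.2.1, fun x hx hxb => hrem.2.2.2 x (mem_filter.1 hx).1 hxb⟩
      · rw [Function.update_of_ne hba, Function.update_of_ne hba]
        have hb' := mem_erase.2 ⟨hba, hb⟩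
        have hr := h3 b hb'
        refine ⟨hr.1, hr.2.1, hr.2.2.1, fun x hx hxb => ?_⟩
        rw [mem_filter] at hx
        have hxa : x ≠ a := by
          rintro rfl
          rw [Function.update_self] at hx
          have := h1 b hb'
          omega
        rw [Function.update_of_ne hxa] at hx
        exact hr.2.2.2 x (mem_filter.2 ⟨mem_erase.2 ⟨hxa, hx.1⟩, hx.2⟩) hxb

/-- (LB6) a labelling in terms of a natural valued label.  `k = 0` excluded.  `s = (c, A)` from `exists_chain`, `B = (ant s).2`;
`fA, nA` from LB5 + LB4 for `s`; `fB, nB` from LB5 + LB4 for `ant s` (chain `ant s → ant (ant s)` by LB2);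
`lab x = fA x` on `A`, `k` at `c`, `2k - fB x` on `B`; `n x = nA x`, `nc` (from `exists_rz`, LB3 with `A' = insert c A`), `nB x`. -/
lemma exists_lab (hg : GenPos v) (hk : 1 ≤ k) :
    ∃ (lab : Ix k → ℕ) (n : Ix k → V3), (∀ x, lab x < 2 * k + 1) ∧ (∀ x y, lab x = lab y → x = y) ∧
      (∀ x, dot (n x) (v x) = 0) ∧ (∀ x y, y ≠ x → dot (n x) (v y) ≠ 0) ∧
      (∀ x, (univ.filter fun y => 0 < dot (n x) (v y)).card ≤ k) ∧
      (∀ x y, lab x ≤ k → lab y < lab x → 0 < dot (n x) (v y)) ∧
      (∀ x y, k < lab x → lab x < lab y → 0 < dot (n x) (v y)) := by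
  classical
  obtain ⟨⟨c, A⟩, hs, hch⟩ := exists_chain hg hk
  have hcA : c ∉ A := hs.1
  have hAk : A.card = k := hs.2.1
  have hs' := hv_ant hg hs
  set B : Finset (Ix k) := (ant ((c, A) : St k)).2 with hB
  have hBk : B.card = k := hs'.2.1
  have hBmem : ∀ x, x ∈ B ↔ x ≠ c ∧ x ∉ A := by
    intro x
    rw [hB]
    unfold ant
    simp only [mem_sdiff, mem_erase, mem_univ, and_true]
  obtain ⟨fA, nA, a1, a2, a3⟩ := peel (v := v) A (fun A' hA' hne => removable hg hch A' hA' hne)
  obtain ⟨fB, nB, b1, b2, b3⟩ := peel (v := v) B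
    (fun A' hA' hne => removable hg (chain_ant hg hch) A' hA' hne)
  obtain ⟨nc, c1, c2, c3, c4⟩ := rem_of_state hg hs (insert c A) (by
    intro x hx
    rw [mem_erase, mem_insert] at hx
    rcases hx.2 with h | h
    · exact absurd h hx.1
    · exact h)
  simp only at c1 c2 c4
  rw [hAk] at a1
  rw [hBk] at b1
  refine ⟨fun x => if x ∈ A then fA x else if x = c then k else 2 * k - fB x,
    fun x => if x ∈ A then nA x else if x = c then nc else nB x, ?_, ?_, ?_, ?_, ?_, ?_, ?_⟩
  · intro x
    by_cases hx : x ∈ A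
    · simp only [if_pos hx]
      have := a1 x hx
      omega
    · by_cases hxc : x = c
      · simp only [if_neg hx, if_pos hxc]
        omega
      · simp only [if_neg hx, if_neg hxc]
        omega
  · intro x y h
    by_cases hx : x ∈ A <;> by_cases hy : y ∈ A
    · simp only [if_pos hx, if_pos hy] at h
      exact a2 x hx y hy h
    · have p := a1 x hx
      by_cases hyc : y = c
      · simp only [if_pos hx, if_neg hy, if_pos hyc] at h
        omega
      · simp only [if_pos hx, if_neg hy, if_neg hyc] at h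
        have := b1 y ((hBmem y).2 ⟨hyc, hy⟩)
        omega
    · have p := a1 y hy
      by_cases hxc : x = c
      · simp only [if_pos hy, if_neg hx, if_pos hxc] at h
        omega
      · simp only [if_pos hy, if_neg hx, if_neg hxc] at h
        have := b1 x ((hBmem x).2 ⟨hxc, hx⟩)
        omega
    · by_cases hxc : x = c <;> by_cases hyc : y = c
      · rw [hxc, hyc]
      · simp only [if_neg hx, if_neg hy, if_pos hxc, if_neg hyc] at h
        have := b1 y ((hBmem y).2 ⟨hyc, hy⟩)
        omega
      · simp only [if_neg hx, if_neg hy, if_neg hxc, if_pos hyc] at h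
        have := b1 x ((hBmem x).2 ⟨hxc, hx⟩)
        omega
      · simp only [if_neg hx, if_neg hy, if_neg hxc, if_neg hyc] at h
        have p1 := b1 x ((hBmem x).2 ⟨hxc, hx⟩)
        have p2 := b1 y ((hBmem y).2 ⟨hyc, hy⟩)
        exact b2 x ((hBmem x).2 ⟨hxc, hx⟩) y ((hBmem y).2 ⟨hyc, hy⟩) (by omega)
  · intro x
    by_cases hx : x ∈ A
    · simp only [if_pos hx]
      exact (a3 x hx).1
    · by_cases hxc : x = c
      · simp only [if_neg hx, if_pos hxc]
        rw [hxc]
        exact c1
      · simp only [if_neg hx, if_neg hxc]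
        exact (b3 x ((hBmem x).2 ⟨hxc, hx⟩)).1
  · intro x y hyx
    by_cases hx : x ∈ A
    · simp only [if_pos hx]
      exact (a3 x hx).2.1 y hyx
    · by_cases hxc : x = c
      · simp only [if_neg hx, if_pos hxc]
        exact c2 y (by rw [← hxc]; exact hyx)
      · simp only [if_neg hx, if_neg hxc]
        exact (b3 x ((hBmem x).2 ⟨hxc, hx⟩)).2.1 y hyx
  · intro x
    by_cases hx : x ∈ A
    · simp only [if_pos hx]
      exact (a3 x hx).2.2.1
    · by_cases hxc : x = c
      · simp only [if_neg hx, if_pos hxc]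
        exact c3
      · simp only [if_neg hx, if_neg hxc]
        exact (b3 x ((hBmem x).2 ⟨hxc, hx⟩)).2.2.1
  · intro x y hxk hyx
    have hyA : ∀ m : ℕ, m ≤ k → (if y ∈ A then fA y else if y = c then k else 2 * k - fB y) < m →
        y ∈ A := by
      intro m hm h
      by_contra hy
      by_cases hyc : y = c
      · simp only [if_neg hy, if_pos hyc] at h
        omega
      · simp only [if_neg hy, if_neg hyc] at h
        have := b1 y ((hBmem y).2 ⟨hyc, hy⟩)
        omega
    have hy := hyA _ hxk hyx
    by_cases hx : x ∈ A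
    · simp only [if_pos hx, if_pos hy] at hyx ⊢
      refine (a3 x hx).2.2.2 y (mem_filter.2 ⟨hy, hyx⟩) ?_
      intro h
      rw [h] at hyx
      exact lt_irrefl _ hyx
    · by_cases hxc : x = c
      · simp only [if_neg hx, if_pos hxc]
        exact c4 y (mem_insert_of_mem hy) (fun h => hcA (h ▸ hy))
      · simp only [if_neg hx, if_neg hxc] at hxk
        have := b1 x ((hBmem x).2 ⟨hxc, hx⟩)
        omega
  · intro x y hxk hxy
    beta_reduce at hxk hxy ⊢
    have hx : x ∉ A := by
      intro hx
      simp only [if_pos hx] at hxk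
      have := a1 x hx
      omega
    have hxc : x ≠ c := by
      intro hxc
      simp only [if_neg hx, if_pos hxc] at hxk
      omega
    simp only [if_neg hx, if_neg hxc] at hxk hxy
    have hy : y ∉ A := by
      intro hy
      simp only [if_pos hy] at hxy
      have := a1 y hy
      omega
    have hyc : y ≠ c := by
      intro hyc
      simp only [if_neg hy, if_pos hyc] at hxy
      omega
    simp only [if_neg hx, if_neg hxc, if_neg hy, if_neg hyc] at hxy ⊢
    have p1 := b1 x ((hBmem x).2 ⟨hxc, hx⟩)
    have p2 := b1 y ((hBmem y).2 ⟨hyc, hy⟩)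
    refine (b3 x ((hBmem x).2 ⟨hxc, hx⟩)).2.2.2 y
      (mem_filter.2 ⟨(hBmem y).2 ⟨hyc, hy⟩, by omega⟩) ?_
    intro h
    rw [h] at hxy
    exact lt_irrefl _ hxy

/-- (LB7) **the labelling lemma**.  `k = 0`: `σ = refl`, `n = 0` (`Fin 1` is a subsingleton).  `k ≥ 1`: LB6; `x ↦ ⟨lab x, _⟩` is an injective
self map of `Fin (2k+1)`, hence bijective (`Finite.injective_iff_bijective`, `Equiv.ofBijective`); `σ` = its inverse, `n' i = n (σ i)`. -/
theorem exists_labelling (k : ℕ) (v : Ix k → V3) (hg : GenPos v) :
    ∃ (σ : Ix k ≃ Ix k) (n : Ix k → V3), (∀ i, dot (n i) (v (σ i)) = 0) ∧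
      (∀ i j, j ≠ i → dot (n i) (v (σ j)) ≠ 0) ∧
      (∀ i, (univ.filter fun j => 0 < dot (n i) (v (σ j))).card ≤ k) ∧
      (∀ i j : Ix k, (i : ℕ) ≤ k → j < i → 0 < dot (n i) (v (σ j))) ∧
      (∀ i j : Ix k, k < (i : ℕ) → i < j → 0 < dot (n i) (v (σ j))) := by
  classical
  rcases Nat.eq_zero_or_pos k with rfl | hk
  · have hsub : Subsingleton (Ix 0) := (inferInstance : Subsingleton (Fin 1))
    refine ⟨Equiv.refl _, fun _ => (0, 0, 0), ?_, ?_, ?_, ?_, ?_⟩
    · intro i; simp [dot]
    · intro i j hj; exact absurd (Subsingleton.elim j i) hj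
    · intro i; simp [dot]
    · intro i j _ hji
      rw [Subsingleton.elim j i] at hji
      exact absurd hji (lt_irrefl _)
    · intro i j _ hji
      rw [Subsingleton.elim j i] at hji
      exact absurd hji (lt_irrefl _)
  · obtain ⟨lab, n, h1, h2, h3, h4, h5, h6, h7⟩ := exists_lab hg hk
    have hginj : Function.Injective (fun x : Ix k => (⟨lab x, h1 x⟩ : Ix k)) :=
      fun x y h => h2 x y (congrArg Fin.val h)
    have hgbij := Finite.injective_iff_bijective.1 hginj
    have hlab : ∀ i : Ix k, lab ((Equiv.ofBijective _ hgbij).symm i) = (i : ℕ) := fun i =>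
      congrArg Fin.val ((Equiv.ofBijective _ hgbij).apply_symm_apply i)
    refine ⟨(Equiv.ofBijective _ hgbij).symm, fun i => n ((Equiv.ofBijective _ hgbij).symm i),
      ?_, ?_, ?_, ?_, ?_⟩
    · intro i; exact h3 _
    · intro i j hj; exact h4 _ _ (fun h => hj ((Equiv.ofBijective _ hgbij).symm.injective h))
    · intro i
      refine le_trans (le_of_eq ?_) (h5 ((Equiv.ofBijective _ hgbij).symm i))
      exact Finset.card_equiv (Equiv.ofBijective _ hgbij).symm (by intro j; simp)
    · intro i j hi hji
      exact h6 _ _ (by rw [hlab]; exact hi) (by rw [hlab, hlab]; exact hji)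
    · intro i j hi hji
      exact h7 _ _ (by rw [hlab]; exact hi) (by rw [hlab, hlab]; exact hji)

end Vale.Agent.P040.Sph3
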