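import Vale.Agent.P040.Sph3.Alg

/-! # First and last vector of a finite family inside an open half plane (rows OR*) -/

namespace Vale.Agent.P040.Sph3

open Finset

variable {k : ℕ}

/-- (OR1) induction on `W` (`Finset.Nonempty.cons_induction` or `Finset.induction_on`): keep the current last element `b`; for a new
element `c` compare by the sign of `det3 u (w b) (w c)` (nonzero by `hne`); transitivity = `trans_aux u y`. -/
lemma exists_last (u y : V3) (w : Ix k → V3) (W : Finset (Ix k)) (hW : W.Nonempty)
    (hy : ∀ l ∈ W, 0 < det3 u y (w l))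
    (hne : ∀ l ∈ W, ∀ l' ∈ W, l ≠ l' → det3 u (w l) (w l') ≠ 0) :
    ∃ b ∈ W, ∀ l ∈ W, l ≠ b → 0 < det3 u (w l) (w b) := by
  classical
  induction W using Finset.induction_on with
  | empty => exact absurd hW (by simp)
  | insert c W' hc ih =>
    by_cases hW' : W'.Nonempty
    · obtain ⟨b, hb, hbl⟩ := ih hW' (fun l hl => hy l (mem_insert_of_mem hl))
        (fun l hl l' hl' => hne l (mem_insert_of_mem hl) l' (mem_insert_of_mem hl'))
      have hcb : c ≠ b := fun h => hc (h ▸ hb)
      have hne' := hne b (mem_insert_of_mem hb) c (mem_insert_self c W') (Ne.symm hcb)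
      rcases lt_or_gt_of_ne hne' with hlt | hgt
      · -- c is before b
        refine ⟨b, mem_insert_of_mem hb, ?_⟩
        intro l hl hlb
        rcases mem_insert.mp hl with rfl | hl'
        · rw [det3_swap23]; linarith
        · exact hbl l hl' hlb
      · -- c is after b
        refine ⟨c, mem_insert_self c W', ?_⟩
        intro l hl hlc
        rcases mem_insert.mp hl with rfl | hl'
        · exact absurd rfl hlc
        · by_cases hlb : l = b
          · rw [hlb]; exact hgt
          · exact trans_aux u y (w l) (w b) (w c) (hy l hl) (hy b (mem_insert_of_mem hb))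
              (hy c (mem_insert_self c W')) (hbl l hl' hlb) hgt
    · rw [not_nonempty_iff_eq_empty] at hW'
      subst hW'
      refine ⟨c, mem_insert_self c _, ?_⟩
      intro l hl hlc
      rcases mem_insert.mp hl with rfl | hl'
      · exact absurd rfl hlc
      · simp at hl'

/-- (OR2) same as OR1 for the first element (`det3_swap23` turns `¬ 0 < det3 u a b` into `0 < det3 u b a`). -/
lemma exists_first (u y : V3) (w : Ix k → V3) (W : Finset (Ix k)) (hW : W.Nonempty)
    (hy : ∀ l ∈ W, 0 < det3 u y (w l))
    (hne : ∀ l ∈ W, ∀ l' ∈ W, l ≠ l' → det3 u (w l) (w l') ≠ 0) :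
    ∃ a ∈ W, ∀ l ∈ W, l ≠ a → 0 < det3 u (w a) (w l) := by
  classical
  induction W using Finset.induction_on with
  | empty => exact absurd hW (by simp)
  | insert c W' hc ih =>
    by_cases hE : W'.Nonempty
    · obtain ⟨a, ha, hall⟩ := ih hE (fun l hl => hy l (mem_insert_of_mem hl))
        (fun l hl l' hl' => hne l (mem_insert_of_mem hl) l' (mem_insert_of_mem hl'))
      have hac : a ≠ c := fun e => hc (e ▸ ha)
      have h0 := hne a (mem_insert_of_mem ha) c (mem_insert_self c W') hac
      rcases lt_or_gt_of_ne h0 with hlt | hgt
      · have hca : 0 < det3 u (w c) (w a) := by rw [det3_swap23]; linarith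
        refine ⟨c, mem_insert_self c W', ?_⟩
        intro l hl hlc
        rcases mem_insert.1 hl with rfl | hl'
        · exact absurd rfl hlc
        · by_cases hla : l = a
          · rw [hla]; exact hca
          · exact trans_aux u y (w c) (w a) (w l) (hy c (mem_insert_self c W'))
              (hy a (mem_insert_of_mem ha)) (hy l hl) hca (hall l hl' hla)
      · refine ⟨a, mem_insert_of_mem ha, ?_⟩
        intro l hl hla
        rcases mem_insert.1 hl with rfl | hl'
        · exact hgt
        · exact hall l hl' hla
    · rw [not_nonempty_iff_eq_empty] at hE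
      subst hE
      refine ⟨c, mem_insert_self c ∅, ?_⟩
      intro l hl hlc
      rcases mem_insert.1 hl with rfl | hl'
      · exact absurd rfl hlc
      · exact absurd hl' (by simp)

end Vale.Agent.P040.Sph3
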