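import Vale.Agent.P040.Sph3.Ends

/-! # States at a vertex, antipodes (rows VX*) -/

namespace Vale.Agent.P040.Sph3

open Finset

variable {k : ℕ} {v : Ix k → V3} {s s' : St k}

/-- (VX1) `det3_self13`, `det3_self23`-type identities. -/
lemma not_mem_posV (v : Ix k → V3) (i j : Ix k) : i ∉ posV v i j ∧ j ∉ posV v i j := by
  have h1 : det3 (v i) (v j) (v i) = 0 := by unfold det3 dot crs; ring
  have h2 : det3 (v i) (v j) (v j) = 0 := by unfold det3 dot crs; ring
  constructor
  · simp [posV, h1]
  · simp [posV, h2]

/-- (VX2) shape of a state with an end at `x`: with `T = posV v x.1 x.2`, the state is `(x.1, T)`, `(x.1, insert x.2 T)`, `(x.2, T)` or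
`(x.2, insert x.1 T)`.  (`s.2` minus the two indices is `T`, the pivot is not in `s.2`; is the other index in `s.2` or not?) -/
lemma state_shape (hs : s.1 ∉ s.2) {x : Ix k × Ix k} (h : IsEnd v s x) :
    s = (x.1, posV v x.1 x.2) ∨ s = (x.1, insert x.2 (posV v x.1 x.2)) ∨
      s = (x.2, posV v x.1 x.2) ∨ s = (x.2, insert x.1 (posV v x.1 x.2)) := by
  obtain ⟨u, P⟩ := s
  obtain ⟨hx, hu, hT⟩ := h
  simp only at hs hu hT
  rw [hT]
  rcases hu with rfl | rfl
  · rw [Finset.erase_eq_of_notMem hs]
    by_cases h2 : x.2 ∈ P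
    · right; left
      rw [Finset.insert_erase h2]
    · left
      rw [Finset.erase_eq_of_notMem h2]
  · rw [Finset.erase_right_comm, Finset.erase_eq_of_notMem hs]
    by_cases h1 : x.1 ∈ P
    · right; right; right
      rw [Finset.insert_erase h1]
    · right; right; left
      rw [Finset.erase_eq_of_notMem h1]

/-- (VX3) the four candidates do have an end at `x`. -/
lemma isEnd_candidates (v : Ix k → V3) {x : Ix k × Ix k} (hx : x.1 ≠ x.2) :
    IsEnd v (x.1, posV v x.1 x.2) x ∧ IsEnd v (x.1, insert x.2 (posV v x.1 x.2)) x ∧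
      IsEnd v (x.2, posV v x.1 x.2) x ∧ IsEnd v (x.2, insert x.1 (posV v x.1 x.2)) x := by
  obtain ⟨h1, h2⟩ := not_mem_posV v x.1 x.2
  have e0 : posV v x.1 x.2 = ((posV v x.1 x.2).erase x.1).erase x.2 := by
    rw [erase_eq_of_notMem h1, erase_eq_of_notMem h2]
  have e1 : posV v x.1 x.2 = ((insert x.2 (posV v x.1 x.2)).erase x.1).erase x.2 := by
    ext l
    simp only [mem_erase, mem_insert]
    constructor
    · intro hl
      exact ⟨fun h => h2 (h ▸ hl), fun h => h1 (h ▸ hl), Or.inr hl⟩
    · rintro ⟨a, _, c | c⟩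
      · exact absurd c a
      · exact c
  have e2 : posV v x.1 x.2 = ((insert x.1 (posV v x.1 x.2)).erase x.1).erase x.2 := by
    ext l
    simp only [mem_erase, mem_insert]
    constructor
    · intro hl
      exact ⟨fun h => h2 (h ▸ hl), fun h => h1 (h ▸ hl), Or.inr hl⟩
    · rintro ⟨_, a, c | c⟩
      · exact absurd c a
      · exact c
  exact ⟨⟨hx, Or.inl rfl, e0⟩, ⟨hx, Or.inl rfl, e1⟩, ⟨hx, Or.inr rfl, e0⟩, ⟨hx, Or.inr rfl, e2⟩⟩

open Classical in
/-- (VX4) every vertex lies on 0 or 2 halving states.  If `x.1 = x.2`: none.  `T = posV ..`, `card T = k`: the filter is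
`{(x.1, T), (x.2, T)}`; `card T + 1 = k`: `{(x.1, insert x.2 T), (x.2, insert x.1 T)}`; otherwise empty (VX1 - VX3, `card_insert_of_notMem`). -/
lemma card_states_at (v : Ix k → V3) (x : Ix k × Ix k) :
    (univ.filter fun s : St k => Hv v s ∧ IsEnd v s x).card = 0 ∨
      (univ.filter fun s : St k => Hv v s ∧ IsEnd v s x).card = 2 := by
  by_cases hx : x.1 = x.2
  · left
    rw [card_eq_zero, filter_eq_empty_iff]
    rintro s - ⟨-, h⟩
    exact h.1 hx
  obtain ⟨n1, n2⟩ := not_mem_posV v x.1 x.2
  obtain ⟨c1, c2, c3, c4⟩ := isEnd_candidates v hx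
  by_cases h1 : (posV v x.1 x.2).card = k
  · right
    have : (univ.filter fun s : St k => Hv v s ∧ IsEnd v s x) =
        {(x.1, posV v x.1 x.2), (x.2, posV v x.1 x.2)} := by
      ext s
      simp only [mem_filter, mem_univ, true_and, mem_insert, mem_singleton]
      constructor
      · rintro ⟨hv, he⟩
        rcases state_shape hv.1 he with h | h | h | h
        · left; exact h
        · exfalso
          have h3 := hv.2.1
          rw [h] at h3
          simp only at h3
          rw [card_insert_of_notMem n2] at h3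
          omega
        · right; exact h
        · exfalso
          have h3 := hv.2.1
          rw [h] at h3
          simp only at h3
          rw [card_insert_of_notMem n1] at h3
          omega
      · rintro (h | h)
        · rw [h]
          exact ⟨⟨n1, h1, x, c1⟩, c1⟩
        · rw [h]
          exact ⟨⟨n2, h1, x, c3⟩, c3⟩
    rw [this, card_pair]
    intro h
    exact hx (congrArg Prod.fst h)
  · by_cases h2 : (posV v x.1 x.2).card + 1 = k
    · right
      have : (univ.filter fun s : St k => Hv v s ∧ IsEnd v s x) =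
          {(x.1, insert x.2 (posV v x.1 x.2)), (x.2, insert x.1 (posV v x.1 x.2))} := by
        ext s
        simp only [mem_filter, mem_univ, true_and, mem_insert, mem_singleton]
        constructor
        · rintro ⟨hv, he⟩
          rcases state_shape hv.1 he with h | h | h | h
          · exfalso
            have h3 := hv.2.1
            rw [h] at h3
            exact h1 h3
          · left; exact h
          · exfalso
            have h3 := hv.2.1
            rw [h] at h3
            exact h1 h3
          · right; exact h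
        · rintro (h | h)
          · rw [h]
            refine ⟨⟨?_, ?_, x, c2⟩, c2⟩
            · simp only [mem_insert, not_or]
              exact ⟨hx, n1⟩
            · simp only
              rw [card_insert_of_notMem n2]
              exact h2
          · rw [h]
            refine ⟨⟨?_, ?_, x, c4⟩, c4⟩
            · simp only [mem_insert, not_or]
              exact ⟨fun h => hx h.symm, n2⟩
            · simp only
              rw [card_insert_of_notMem n1]
              exact h2
      rw [this, card_pair]
      intro h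
      exact hx (congrArg Prod.fst h)
    · left
      rw [card_eq_zero, filter_eq_empty_iff]
      rintro s - ⟨hv, he⟩
      have h3 := hv.2.1
      rcases state_shape hv.1 he with h | h | h | h
      · rw [h] at h3
        exact h1 h3
      · rw [h] at h3
        simp only at h3
        rw [card_insert_of_notMem n2] at h3
        exact h2 h3
      · rw [h] at h3
        exact h1 h3
      · rw [h] at h3
        simp only at h3
        rw [card_insert_of_notMem n1] at h3
        exact h2 h3

/-- (VX5) two different halving states with a common end differ by a windmill move (VX2 for both, cards equal `k`, VX1). -/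
lemma wind_of_share (hs : Hv v s) (hs' : Hv v s') (hne : s ≠ s') {x : Ix k × Ix k}
    (h : IsEnd v s x) (h' : IsEnd v s' x) : Wind s s' := by
  obtain ⟨h1, h2⟩ := not_mem_posV v x.1 x.2
  have hx : x.1 ≠ x.2 := h.1
  have c1 : (insert x.2 (posV v x.1 x.2)).card = (posV v x.1 x.2).card + 1 :=
    card_insert_of_notMem h2
  have c2 : (insert x.1 (posV v x.1 x.2)).card = (posV v x.1 x.2).card + 1 :=
    card_insert_of_notMem h1
  have k1 := hs.2.1
  have k2 := hs'.2.1
  rcases state_shape hs.1 h with e | e | e | e <;>
    rcases state_shape hs'.1 h' with e' | e' | e' | e' <;> subst e <;> subst e'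
  all_goals first
    | exact absurd rfl hne
    | (exfalso; dsimp only at k1 k2; omega)
    | (right; exact ⟨h2, hx.symm, rfl⟩)
    | (right; exact ⟨h1, hx, rfl⟩)
    | (left; refine ⟨mem_insert_self _ _, ?_⟩; dsimp only; rw [erase_insert h2])
    | (left; refine ⟨mem_insert_self _ _, ?_⟩; dsimp only; rw [erase_insert h1])

/-- (VX6) `det3_swap12` and `GenPos`. -/
lemma posV_swap (hg : GenPos v) {i j : Ix k} (hij : i ≠ j) :
    posV v j i = ((univ.erase i).erase j) \ posV v i j := by
  ext l
  simp only [posV, mem_filter, mem_univ, true_and, and_true, mem_sdiff, mem_erase, not_lt]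
  rw [det3_swap12 (v i) (v j) (v l)]
  constructor
  · intro h
    refine ⟨⟨?_, ?_⟩, by linarith⟩
    · rintro rfl
      rw [det3_self23] at h
      linarith
    · rintro rfl
      rw [det3_self13] at h
      linarith
  · rintro ⟨⟨h1, h2⟩, h3⟩
    have := hg i j l hij (Ne.symm h2) (Ne.symm h1)
    have : det3 (v i) (v j) (v l) < 0 := lt_of_le_of_ne h3 this
    linarith

/-- (VX7) VX6 and set algebra (`ext l`, `simp`, `tauto`). -/
lemma isEnd_ant (hg : GenPos v) (hs : s.1 ∉ s.2) {x : Ix k × Ix k} (h : IsEnd v s x) :
    IsEnd v (ant s) (x.2, x.1) := by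
  obtain ⟨h1, h2, h3⟩ := h
  refine ⟨Ne.symm h1, ?_, ?_⟩
  · show s.1 = x.2 ∨ s.1 = x.1
    tauto
  · show posV v x.2 x.1 = ((((univ.erase s.1) \ s.2).erase x.2).erase x.1)
    rw [posV_swap hg h1, h3]
    ext l
    simp only [mem_sdiff, mem_erase, mem_univ, and_true, ne_eq]
    rcases h2 with h2 | h2
    · rw [h2]
      tauto
    · rw [h2]
      tauto

/-- (VX8) `card_sdiff`, `card_erase_of_mem`, `card_univ`, `Fintype.card_fin`; VX7. -/
lemma hv_ant (hg : GenPos v) (hs : Hv v s) : Hv v (ant s) := by
  obtain ⟨h1, h2, x, hx⟩ := hs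
  refine ⟨?_, ?_, (x.2, x.1), isEnd_ant hg h1 hx⟩
  · show s.1 ∉ (univ.erase s.1) \ s.2
    simp
  · show ((univ.erase s.1) \ s.2).card = k
    have hsub : s.2 ⊆ univ.erase s.1 := by
      intro l hl
      rw [mem_erase]
      refine ⟨?_, mem_univ _⟩
      rintro rfl
      exact h1 hl
    rw [card_sdiff_of_subset hsub, card_erase_of_mem (mem_univ _), card_univ, Fintype.card_fin, h2]
    omega

/-- (VX9) set algebra. -/
lemma ant_ant (hs : s.1 ∉ s.2) : ant (ant s) = s := by
  refine Prod.ext rfl ?_
  show (univ.erase s.1) \ ((univ.erase s.1) \ s.2) = s.2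
  ext l
  simp only [mem_sdiff, mem_erase, mem_univ, and_true, ne_eq]
  constructor
  · rintro ⟨h1, h2⟩
    by_contra h3
    exact h2 ⟨h1, h3⟩
  · intro h
    refine ⟨?_, fun h2 => h2.2 h⟩
    rintro rfl
    exact hs h

/-- (VX10) VX7 in both directions (VX9). -/
lemma ends_ant (hg : GenPos v) (hs : s.1 ∉ s.2) : ends v (ant s) = (ends v s).image Prod.swap := by
  have hs2 : (ant s).1 ∉ (ant s).2 := by
    unfold ant
    simp
  ext x
  unfold ends
  simp only [mem_filter, mem_univ, true_and, mem_image]
  constructor
  · intro h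
    have h2 := isEnd_ant hg hs2 h
    rw [ant_ant hs] at h2
    exact ⟨(x.2, x.1), h2, rfl⟩
  · rintro ⟨y, hy, rfl⟩
    exact isEnd_ant hg hs hy

/-- (VX11) a windmill move of `s` is a windmill move of the antipodes (the two kinds are exchanged); set algebra. -/
lemma wind_ant (hs : s.1 ∉ s.2) (hs' : s'.1 ∉ s'.2) (h : Wind s s') : Wind (ant s) (ant s') := by
  obtain ⟨u, P⟩ := s
  obtain ⟨u', P'⟩ := s'
  unfold Wind ant at *
  simp only at *
  rcases h with ⟨h1, h2⟩ | ⟨h1, h2, h3⟩
  · right
    have hne : u' ≠ u := fun h => hs (h ▸ h1)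
    refine ⟨by simp [h1], hne, ?_⟩
    subst h2
    ext l
    simp only [mem_sdiff, mem_erase, mem_univ, and_true, mem_insert, not_or, not_and]
    constructor
    · rintro ⟨a, c, d⟩
      exact ⟨c, fun hl => d a hl⟩
    · rintro ⟨a, c⟩
      exact ⟨fun h => c (h ▸ h1), a, fun _ hl => absurd hl c⟩
  · left
    subst h3
    refine ⟨by simp [h1, h2], ?_⟩
    ext l
    simp only [mem_sdiff, mem_erase, mem_univ, and_true, mem_insert]
    constructor
    · rintro ⟨a, c⟩
      by_cases hl : l = u
      · exact Or.inl hl
      · exact Or.inr ⟨a, hl, c⟩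
    · rintro (rfl | ⟨a, _, c⟩)
      · exact ⟨fun h => h2 h.symm, hs⟩
      · exact ⟨a, c⟩

end Vale.Agent.P040.Sph3
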